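import Vale.Agent.P231.EN.Pb

/-!
# P231, block EN: the standard value `∫ dρ ∧ β₀ ∧ (dβ₀)^(n-1) = (2π)^n`
-/

set_option linter.unusedSectionVars false

open MeasureTheory Set Module Filter Topology
open scoped ContDiff

namespace Vale.Agent.P231.EN.Std

open Vale.Agent.P231.Fm Vale.Agent.P231.EN

section Alg

variable {E : Type*} [NormedAddCommGroup E] [NormedSpace ℝ E] [FiniteDimensional ℝ E]

theorem pow_inv_even {w : Lam E} (hw : inv w = w) (n : ℕ) : inv (w ^ n) = w ^ n := by
  rw [map_pow, hw]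

theorem iprod_pow_even {w : Lam E} (hw : inv w = w) (v : E) (n : ℕ) :
    iprod v (w ^ n) = (n : ℝ) • (iprod v w * w ^ (n - 1)) := by
  induction n with
  | zero => simp
  | succ n ih =>
    rw [pow_succ, iprod_mul, ih, pow_inv_even hw]
    rcases n with _ | n
    · simp
    · simp only [Nat.add_sub_cancel]
      rw [smul_mul_assoc, mul_assoc, ← pow_succ,
        mul_comm_of_even (pow_inv_even hw (n + 1)) (iprod v w)]
      push_cast
      rw [add_smul ((n : ℝ) + 1) 1, one_smul]

theorem dx_mul_dx_even (a b : E →L[ℝ] ℝ) : inv (dx a * dx b) = dx a * dx b := by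
  rw [map_mul, inv_dx, inv_dx, neg_mul_neg]

/-- the standard two-form of two families of linear forms -/
noncomputable def om2 {n : ℕ} (x y : Fin n → (E →L[ℝ] ℝ)) : Lam E := ∑ j, dx (x j) * dx (y j)

theorem om2_even {n : ℕ} (x y : Fin n → (E →L[ℝ] ℝ)) : inv (om2 x y) = om2 x y := by
  unfold om2
  rw [map_sum]
  exact Finset.sum_congr rfl fun j _ => dx_mul_dx_even _ _

theorem iprod_om2 {n : ℕ} (x y : Fin n → (E →L[ℝ] ℝ)) (v : E) :
    iprod v (om2 x y) = ∑ j, ((x j v) • dx (y j) - (y j v) • dx (x j)) := by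
  unfold om2
  rw [map_sum]
  refine Finset.sum_congr rfl fun j _ => ?_
  rw [iprod_dx_mul, iprod_dx, Algebra.algebraMap_eq_smul_one, mul_smul_comm, mul_one]

theorem om2_succ {n : ℕ} (x y : Fin (n + 1) → (E →L[ℝ] ℝ)) :
    om2 x y = dx (x 0) * dx (y 0) + om2 (fun j => x j.succ) (fun j => y j.succ) := by
  unfold om2
  rw [Fin.sum_univ_succ]

theorem sq_zero_pow_add {a b : Lam E} (ha : a * a = 0) (hae : inv a = a) (n : ℕ) :
    (a + b) ^ n = b ^ n + (n : ℝ) • (a * b ^ (n - 1)) := by
  induction n with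
  | zero => simp
  | succ n ih =>
    rw [pow_succ, ih]
    rcases n with _ | n
    · simp [add_comm]
    · simp only [Nat.add_sub_cancel]
      have h1 : b ^ (n + 1) * a = a * b ^ (n + 1) := (mul_comm_of_even hae _).symm
      have h2 : a * b ^ n * a = 0 := by
        rw [mul_assoc, ← mul_comm_of_even hae, ← mul_assoc, ha, zero_mul]
      rw [mul_add, add_mul, add_mul, smul_mul_assoc, smul_mul_assoc, h1, h2, smul_zero, add_zero,
        mul_assoc a, ← pow_succ, ← pow_succ]
      push_cast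
      rw [add_smul ((n : ℝ) + 1) 1, one_smul]
      abel

/-- evaluation of the top power on the dual basis -/
theorem evalForm_om2_pow {n : ℕ} (x y : Fin n → (E →L[ℝ] ℝ)) (v : Fin (2 * n) → E)
    (hx : ∀ j i, x j (v i) = if (i : ℕ) = 2 * (j : ℕ) then 1 else 0)
    (hy : ∀ j i, y j (v i) = if (i : ℕ) = 2 * (j : ℕ) + 1 then 1 else 0) :
    evalForm (om2 x y ^ n) v = (n.factorial : ℝ) := by
  induction n with
  | zero => simp [evalForm_apply]
  | succ n ih =>
    have e0 : ((0 : Fin (2 * n + 2)) : ℕ) = 0 := rfl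
    have e1 : ((1 : Fin (2 * n + 2)) : ℕ) = 1 := rfl
    set x' : Fin n → (E →L[ℝ] ℝ) := fun j => x j.succ with hx'
    set y' : Fin n → (E →L[ℝ] ℝ) := fun j => y j.succ with hy'
    set v0 : E := v (0 : Fin (2 * n + 2)) with hv0
    set v1 : E := v (1 : Fin (2 * n + 2)) with hv1
    have a1 : ∀ j, x' j v0 = 0 := fun j => by
      rw [hx', hv0, hx]
      exact if_neg (by rw [e0]; simp)
    have a2 : ∀ j, y' j v0 = 0 := fun j => by
      rw [hy', hv0, hy]
      exact if_neg (by rw [e0]; simp)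
    have a3 : ∀ j, x' j v1 = 0 := fun j => by
      rw [hx', hv1, hx]
      exact if_neg (by rw [e1, Fin.val_succ]; omega)
    have a4 : ∀ j, y' j v1 = 0 := fun j => by
      rw [hy', hv1, hy]
      exact if_neg (by rw [e1, Fin.val_succ]; omega)
    have b1 : x 0 v0 = 1 := by rw [hv0, hx]; exact if_pos (by simp)
    have b2 : y 0 v0 = 0 := by rw [hv0, hy]; exact if_neg (by rw [e0]; simp)
    have b3 : x 0 v1 = 0 := by rw [hv1, hx]; exact if_neg (by rw [e1]; simp)
    have b4 : y 0 v1 = 1 := by rw [hv1, hy]; exact if_pos (by rw [e1]; simp)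
    have c0 : iprod v0 (om2 x' y') = 0 := by
      rw [iprod_om2]
      exact Finset.sum_eq_zero fun j _ => by rw [a1, a2]; simp
    have c1 : iprod v1 (om2 x' y') = 0 := by
      rw [iprod_om2]
      exact Finset.sum_eq_zero fun j _ => by rw [a3, a4]; simp
    have d0 : ∀ m, iprod v0 (om2 x' y' ^ m) = 0 := fun m => by
      rw [iprod_pow_even (om2_even _ _), c0, zero_mul, smul_zero]
    have d1 : ∀ m, iprod v1 (om2 x' y' ^ m) = 0 := fun m => by
      rw [iprod_pow_even (om2_even _ _), c1, zero_mul, smul_zero]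
    have hsq : (dx (x 0) * dx (y 0)) * (dx (x 0) * dx (y 0)) = 0 := by
      rw [mul_assoc, ← mul_assoc (dx (y 0)), dx_anticomm (y 0) (x 0), neg_mul, mul_assoc,
        dx_mul_self, mul_zero, neg_zero, mul_zero]
    rw [om2_succ, sq_zero_pow_add hsq (dx_mul_dx_even _ _), Nat.add_sub_cancel]
    have key : cont v (om2 x' y' ^ (n + 1) +
        ((n + 1 : ℕ) : ℝ) • (dx (x 0) * dx (y 0) * om2 x' y' ^ n)) =
        ((n + 1 : ℕ) : ℝ) • cont (fun i : Fin (2 * n) => v i.succ.succ) (om2 x' y' ^ n) := by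
      rw [map_add, map_smul]
      have k1 : cont v (om2 x' y' ^ (n + 1)) = 0 := by
        change cont (fun i => v (Fin.succ i)) (iprod v0 _) = 0
        rw [d0, map_zero]
      have k2 : cont v (dx (x 0) * dx (y 0) * om2 x' y' ^ n) =
          cont (fun i : Fin (2 * n) => v i.succ.succ) (om2 x' y' ^ n) := by
        change cont (fun i : Fin (2 * n) => v i.succ.succ) (iprod v1 (iprod v0 _)) = _
        congr 1
        rw [mul_assoc, iprod_dx_mul, b1, one_smul, iprod_dx_mul, b2, zero_smul, d0, mul_zero,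
          sub_zero, mul_zero, sub_zero, iprod_dx_mul, b4, one_smul, d1, mul_zero, sub_zero]
      rw [k1, zero_add, k2]
    rw [evalForm_apply, key, map_smul, smul_eq_mul]
    have ih' := ih x' y' (fun i => v i.succ.succ) (fun j i => by
        rw [hx', hx]
        congr 1
        simp only [Fin.val_succ, eq_iff_iff]
        omega) (fun j i => by
        rw [hy', hy]
        congr 1
        simp only [Fin.val_succ, eq_iff_iff]
        omega)
    rw [evalForm_apply] at ih'
    rw [ih', Nat.factorial_succ]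
    push_cast
    ring

/-- a `(k+1)`-fold evaluation on a basis of a `k`-dimensional space vanishes -/
theorem evalForm_cons_basis {k : ℕ} (b : Basis (Fin k) ℝ E) (v : E) (w : Lam E) :
    evalForm (iprod v w) b = 0 := by
  have h : evalForm (iprod v w) b = evalForm (k := k + 1) w (Fin.cons v b) := by
    rw [evalForm_apply, evalForm_apply, cont_succ]
    rfl
  rw [h]
  refine AlternatingMap.map_linearDependent _ _ fun hli => ?_
  have h1 := hli.fintype_card_le_finrank
  rw [Fintype.card_fin, finrank_eq_card_basis b, Fintype.card_fin] at h1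
  omega

/-- contraction with the position vector: `D ∧ λ ∧ ω^(n-1)` in terms of `ω^n` -/
theorem evalForm_D {n : ℕ} {k : ℕ} (b : Basis (Fin k) ℝ E)
    (x y : Fin n → (E →L[ℝ] ℝ)) (a : E →L[ℝ] ℝ) (v : E) :
    (n : ℝ) * evalForm (dx a * iprod v (om2 x y) * om2 x y ^ (n - 1)) b =
      a v * evalForm (om2 x y ^ n) b := by
  have h := evalForm_cons_basis b v (dx a * om2 x y ^ n)
  rw [iprod_dx_mul, iprod_pow_even (om2_even x y), mul_smul_comm, ← mul_assoc] at h
  have h2 : evalForm (a v • om2 x y ^ n - (n : ℝ) • (dx a * iprod v (om2 x y) *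
      om2 x y ^ (n - 1))) b = a v * evalForm (om2 x y ^ n) b -
      (n : ℝ) * evalForm (dx a * iprod v (om2 x y) * om2 x y ^ (n - 1)) b := by
    simp only [evalForm_apply, map_sub, map_smul, smul_eq_mul]
  rw [h2] at h
  linarith

/-- square-zero perturbation -/
theorem sq_zero_mul_pow {p q : Lam E} (hp : p * p = 0) (hpe : inv p = p) (c : ℝ) (m : ℕ) :
    p * (c • p + q) ^ m = p * q ^ m := by
  induction m with
  | zero => simp
  | succ m ih =>
    rw [pow_succ, ← mul_assoc, ih, mul_add, mul_smul_comm, mul_assoc, ← mul_comm_of_even hpe,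
      ← mul_assoc, hp, zero_mul, smul_zero, zero_add, mul_assoc, ← pow_succ]

end Alg

section Gen

variable {E : Type*} [NormedAddCommGroup E] [NormedSpace ℝ E] [FiniteDimensional ℝ E]
variable {n : ℕ} (x y : Fin n → (E →L[ℝ] ℝ))

/-- the square of the euclidean norm -/
noncomputable def nsq (z : E) : ℝ := ∑ j, (x j z ^ 2 + y j z ^ 2)

/-- `λ₀ = ∑ x_j dy_j - y_j dx_j` -/
noncomputable def lam0 (z : E) : Lam E := ∑ j, (x j z • dx (y j) - y j z • dx (x j))

/-- `β₀ = λ₀ / |z|²` -/
noncomputable def beta0 (z : E) : Lam E := (nsq x y z)⁻¹ • lam0 x y z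

theorem lam0_eq (z : E) : lam0 x y z = iprod z (om2 x y) := by
  rw [iprod_om2]
  rfl

theorem contDiff_lam0 : ContDiff ℝ ∞ (lam0 x y) := by
  unfold lam0
  fun_prop

theorem contDiff_nsq : ContDiff ℝ ∞ (nsq x y) := by
  unfold nsq
  fun_prop

theorem extd_lam0 (z : E) : extd (lam0 x y) z = (2 : ℝ) • om2 x y := by
  have h2 : ∀ (a : E →L[ℝ] ℝ) (c : Lam E), extd (fun z : E => a z • c) z = dx a * c := by
    intro a c
    rw [extd_smul (f := fun z : E => a z) a.differentiableAt (differentiableAt_const c),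
      extd_const, smul_zero, add_zero, ContinuousLinearMap.fderiv]
  have h3 : ∀ (a : E →L[ℝ] ℝ) (c : Lam E), DifferentiableAt ℝ (fun z : E => a z • c) z :=
    fun a c => a.differentiableAt.smul_const c
  unfold lam0
  rw [extd_sum (w := fun j (z : E) => x j z • dx (y j) - y j z • dx (x j))
    _ (fun j _ => (h3 _ _).sub (h3 _ _))]
  unfold om2
  rw [Finset.smul_sum]
  refine Finset.sum_congr rfl fun j _ => ?_
  rw [extd_sub (h3 _ _) (h3 _ _), h2, h2, dx_anticomm (y j) (x j), sub_neg_eq_add, two_smul]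

theorem hasFDerivAt_nsq (z : E) : HasFDerivAt (nsq x y)
    (∑ j, ((2 * x j z) • x j + (2 * y j z) • y j)) z := by
  unfold nsq
  refine HasFDerivAt.fun_sum fun j _ => ?_
  have h := (((x j).hasFDerivAt (x := z)).pow 2).add (((y j).hasFDerivAt (x := z)).pow 2)
  refine h.congr_fderiv ?_
  simp

theorem fderiv_nsq_apply (z v : E) :
    fderiv ℝ (nsq x y) z v = 2 * ∑ j, (x j z * x j v + y j z * y j v) := by
  rw [(hasFDerivAt_nsq x y z).fderiv]
  simp only [sum_apply, add_apply, smul_apply, smul_eq_mul, Finset.mul_sum]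
  exact Finset.sum_congr rfl fun i _ => by ring

theorem fderiv_nsq_self (z : E) : fderiv ℝ (nsq x y) z z = 2 * nsq x y z := by
  rw [fderiv_nsq_apply]
  congr 1
  exact Finset.sum_congr rfl fun i _ => by ring

theorem lam0_odd (z : E) : inv (lam0 x y z) = -lam0 x y z := by
  unfold lam0
  rw [map_sum, ← Finset.sum_neg_distrib]
  refine Finset.sum_congr rfl fun j _ => ?_
  rw [map_sub, map_smul, map_smul, inv_dx, inv_dx, smul_neg, smul_neg]
  abel

theorem extd_beta0 {z : E} (hz : 0 < nsq x y z) :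
    extd (beta0 x y) z = (-(nsq x y z ^ 2)⁻¹) • (dx (fderiv ℝ (nsq x y) z) * lam0 x y z) +
      (2 * (nsq x y z)⁻¹) • om2 x y := by
  have h0 := hz.ne'
  have h1 : HasFDerivAt (fun z => (nsq x y z)⁻¹)
      ((-(nsq x y z ^ 2)⁻¹) • fderiv ℝ (nsq x y) z) z := by
    have := (hasDerivAt_inv h0).comp_hasFDerivAt z
      ((contDiff_nsq x y).differentiable (by simp) z).hasFDerivAt
    exact this
  unfold beta0
  rw [extd_smul h1.differentiableAt ((contDiff_lam0 x y).differentiable (by simp) z), h1.fderiv,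
    extd_lam0, map_smul, smul_mul_assoc, smul_smul]
  congr 2
  ring

/-- the integrand -/
theorem integrand_eq {χ : ℝ → ℝ} (hn : 1 ≤ n) {z : E} (hz : 0 < nsq x y z)
    (hχ : DifferentiableAt ℝ χ (nsq x y z)) (b : Basis (Fin (2 * n)) ℝ E)
    (hx : ∀ j i, x j (b i) = if (i : ℕ) = 2 * (j : ℕ) then 1 else 0)
    (hy : ∀ j i, y j (b i) = if (i : ℕ) = 2 * (j : ℕ) + 1 then 1 else 0) :
    evalForm (dx (fderiv ℝ (fun z => χ (nsq x y z)) z) * (beta0 x y z *
      (extd (beta0 x y) z) ^ (n - 1))) b =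
      deriv χ (nsq x y z) * (2 ^ n * ((n - 1).factorial : ℝ) * (nsq x y z ^ (n - 1))⁻¹) := by
  have h0 := hz.ne'
  have h1 : fderiv ℝ (fun z => χ (nsq x y z)) z = deriv χ (nsq x y z) • fderiv ℝ (nsq x y) z :=
    (hχ.hasDerivAt.comp_hasFDerivAt z
      ((contDiff_nsq x y).differentiable (by simp) z).hasFDerivAt).fderiv
  set D : Lam E := dx (fderiv ℝ (nsq x y) z) with hD
  have hl : inv (lam0 x y z) = -lam0 x y z := lam0_odd x y z
  have hll : lam0 x y z * lam0 x y z = 0 := mul_self_of_odd hl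
  have hDl : inv (D * lam0 x y z) = D * lam0 x y z := by
    rw [map_mul, hl, hD, inv_dx, neg_mul_neg]
  have hsq : (D * lam0 x y z) * (D * lam0 x y z) = 0 := by
    have : lam0 x y z * D = -(D * lam0 x y z) := by
      rw [hD, dx_mul, hl, neg_mul, neg_neg]
    rw [mul_assoc, ← mul_assoc (lam0 x y z), this, neg_mul, mul_assoc D, hll, mul_zero, neg_zero,
      mul_zero]
  have h2 : dx (fderiv ℝ (fun z => χ (nsq x y z)) z) * (beta0 x y z *
      (extd (beta0 x y) z) ^ (n - 1)) =
      (deriv χ (nsq x y z) * (nsq x y z)⁻¹ * (2 * (nsq x y z)⁻¹) ^ (n - 1)) •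
        (D * iprod z (om2 x y) * om2 x y ^ (n - 1)) := by
    rw [← mul_assoc, h1, map_smul, beta0, extd_beta0 x y hz, smul_mul_smul_comm, smul_mul_assoc,
      ← hD, sq_zero_mul_pow hsq hDl, smul_pow, mul_smul_comm, smul_smul, lam0_eq]
  have h3 := evalForm_D b x y (fderiv ℝ (nsq x y) z) z
  have h4 : evalForm (om2 x y ^ n) b = (n.factorial : ℝ) := evalForm_om2_pow _ _ _ hx hy
  rw [h4, fderiv_nsq_self] at h3
  have hn0 : (n : ℝ) ≠ 0 := by positivity
  have h5 : (n.factorial : ℝ) = n * ((n - 1).factorial : ℝ) := by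
    rw [← Nat.mul_factorial_pred (by omega)]
    push_cast
    ring
  have h6 : evalForm (D * iprod z (om2 x y) * om2 x y ^ (n - 1)) b =
      2 * nsq x y z * ((n - 1).factorial : ℝ) := by
    apply mul_left_cancel₀ hn0
    rw [h3, h5]
    ring
  rw [h2]
  have h7 : ∀ (c : ℝ) (w : Lam E), evalForm (c • w) b = c * evalForm w b := by
    intro c w
    simp only [evalForm_apply, map_smul, smul_eq_mul]
  rw [h7, h6]
  obtain ⟨m, rfl⟩ : ∃ m, n = m + 1 := ⟨n - 1, by omega⟩
  simp only [Nat.add_sub_cancel]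
  rw [mul_pow, inv_pow, pow_succ 2 m]
  field_simp

section Rot

variable {Z : E → E} (hZx : ∀ j z, x j (Z z) = -y j z) (hZy : ∀ j z, y j (Z z) = x j z)

include hZx hZy

theorem iprod_Z_lam0 (z : E) : iprod (Z z) (lam0 x y z) = algebraMap ℝ (Lam E) (nsq x y z) := by
  unfold lam0 nsq
  rw [map_sum, map_sum]
  refine Finset.sum_congr rfl fun j _ => ?_
  rw [map_sub, map_smul, map_smul, iprod_dx, iprod_dx, hZx, hZy]
  simp only [Algebra.algebraMap_eq_smul_one, smul_smul, ← sub_smul]
  congr 1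
  ring

theorem fderiv_nsq_Z (z : E) : fderiv ℝ (nsq x y) z (Z z) = 0 := by
  rw [fderiv_nsq_apply]
  rw [Finset.sum_eq_zero fun j _ => by rw [hZx, hZy]; ring, mul_zero]

theorem iprod_Z_om2 (z : E) :
    (2 : ℝ) • iprod (Z z) (om2 x y) = -dx (fderiv ℝ (nsq x y) z) := by
  rw [iprod_om2, (hasFDerivAt_nsq x y z).fderiv, map_sum, Finset.smul_sum,
    ← Finset.sum_neg_distrib]
  refine Finset.sum_congr rfl fun j _ => ?_
  rw [map_add, map_smul, map_smul, hZx, hZy, smul_sub, smul_smul, smul_smul, mul_neg, neg_smul,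
    neg_add_rev, sub_eq_add_neg]

/-- `β₀` is a connection form for the field `Z` with `x_j(Z) = -y_j`, `y_j(Z) = x_j` -/
theorem conn_beta0 (hpos : ∀ z, z ≠ 0 → 0 < nsq x y z) : Conn Z (beta0 x y) where
  smooth := fun z hz => ((contDiff_nsq x y).contDiffAt.inv (hpos z hz).ne').smul
    (contDiff_lam0 x y).contDiffAt
  odd := fun z _ => by
    rw [beta0, map_smul, lam0_odd, smul_neg]
  one := fun z hz => by
    rw [beta0, map_smul, iprod_Z_lam0 x y hZx hZy, Algebra.algebraMap_eq_smul_one, smul_smul,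
      inv_mul_cancel₀ (hpos z hz).ne', one_smul]
  zero := fun z hz => by
    have h0 := (hpos z hz).ne'
    rw [extd_beta0 x y (hpos z hz), map_add, map_smul, map_smul, iprod_dx_mul,
      iprod_Z_lam0 x y hZx hZy, fderiv_nsq_Z x y hZx hZy, zero_smul, zero_sub,
      Algebra.algebraMap_eq_smul_one, mul_smul_comm, mul_one, mul_comm 2, mul_smul,
      iprod_Z_om2 x y hZx hZy, smul_neg, smul_neg, neg_smul, neg_neg, smul_smul]
    have : (nsq x y z ^ 2)⁻¹ * nsq x y z = (nsq x y z)⁻¹ := by field_simp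
    rw [this, add_neg_cancel]

end Rot

end Gen

section Cn

variable (n : ℕ)

/-- `z ↦ Re z_j` -/
noncomputable def xc (j : Fin n) : (Fin n → ℂ) →L[ℝ] ℝ :=
  Complex.reCLM.comp (ContinuousLinearMap.proj (R := ℝ) (φ := fun _ : Fin n => ℂ) j)

/-- `z ↦ Im z_j` -/
noncomputable def yc (j : Fin n) : (Fin n → ℂ) →L[ℝ] ℝ :=
  Complex.imCLM.comp (ContinuousLinearMap.proj (R := ℝ) (φ := fun _ : Fin n => ℂ) j)

theorem nsq_pos {z : Fin n → ℂ} (hz : z ≠ 0) : 0 < nsq (xc n) (yc n) z := by
  obtain ⟨i, hi⟩ := Function.ne_iff.1 hz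
  refine lt_of_lt_of_le ?_ (Finset.single_le_sum
    (f := fun j => xc n j z ^ 2 + yc n j z ^ 2) (fun i _ => by positivity) (Finset.mem_univ i))
  have h1 : 0 < Complex.normSq (z i) := Complex.normSq_pos.2 hi
  rw [Complex.normSq_apply] at h1
  change 0 < (z i).re ^ 2 + (z i).im ^ 2
  nlinarith

theorem norm_sq_le_nsq (z : Fin n → ℂ) : ‖z‖ ^ 2 ≤ nsq (xc n) (yc n) z := by
  have h0 : 0 ≤ nsq (xc n) (yc n) z := Finset.sum_nonneg fun i _ => by positivity
  have h1 : ‖z‖ ≤ √(nsq (xc n) (yc n) z) := by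
    rw [pi_norm_le_iff_of_nonneg (Real.sqrt_nonneg _)]
    intro i
    refine Real.le_sqrt_of_sq_le ?_
    have h2 : ‖z i‖ ^ 2 = (z i).re ^ 2 + (z i).im ^ 2 := by
      rw [← Complex.normSq_eq_norm_sq, Complex.normSq_apply]
      ring
    rw [h2]
    exact Finset.single_le_sum
      (f := fun j => xc n j z ^ 2 + yc n j z ^ 2) (fun i _ => by positivity) (Finset.mem_univ i)
  calc ‖z‖ ^ 2 ≤ √(nsq (xc n) (yc n) z) ^ 2 := by gcongr
    _ = _ := Real.sq_sqrt h0

/-- the real cut-off -/
noncomputable def chr (t : ℝ) : ℝ := Real.smoothTransition (2 * t - 1)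

theorem contDiff_chr : ContDiff ℝ ∞ chr :=
  Real.smoothTransition.contDiff.comp (by fun_prop)

theorem chr_zero {t : ℝ} (ht : t ≤ 1 / 2) : chr t = 0 :=
  Real.smoothTransition.zero_of_nonpos (by linarith)

theorem chr_one {t : ℝ} (ht : 1 ≤ t) : chr t = 1 :=
  Real.smoothTransition.one_of_one_le (by linarith)

theorem nsq_zero : nsq (xc n) (yc n) 0 = 0 := by
  unfold nsq
  simp

/-- the cut-off -/
noncomputable def u0 (z : Fin n → ℂ) : ℝ := chr (nsq (xc n) (yc n) z)

theorem cut_u0 : Cut (u0 n) where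
  smooth := contDiff_chr.comp (contDiff_nsq _ _)
  near := by
    have h1 : ContinuousAt (nsq (xc n) (yc n)) 0 := (contDiff_nsq _ _).continuous.continuousAt
    have h2 : ∀ᶠ z in 𝓝 (0 : Fin n → ℂ), nsq (xc n) (yc n) z < 1 / 2 :=
      h1.eventually_lt_const (by rw [nsq_zero]; norm_num)
    filter_upwards [h2] with z hz using chr_zero hz.le
  far := by
    refine ⟨Metric.closedBall 0 1, isCompact_closedBall _ _, fun z hz => chr_one ?_⟩
    rw [mem_closedBall_zero_iff, not_le] at hz
    have := norm_sq_le_nsq n z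
    nlinarith

theorem hZx (j : Fin n) (z : Fin n → ℂ) : xc n j (rotX z) = -yc n j z := by
  simp [xc, yc, rotX]

theorem hZy (j : Fin n) (z : Fin n → ℂ) : yc n j (rotX z) = xc n j z := by
  simp [xc, yc, rotX]

theorem conn_c : Conn rotX (beta0 (xc n) (yc n)) :=
  conn_beta0 _ _ (hZx n) (hZy n) fun _ hz => nsq_pos n hz

theorem fderiv_u0 (z : Fin n → ℂ) : fderiv ℝ (u0 n) z =
    deriv chr (nsq (xc n) (yc n) z) • fderiv ℝ (nsq (xc n) (yc n)) z :=
  ((contDiff_chr.differentiable (by simp) _).hasDerivAt.comp_hasFDerivAt z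
      ((contDiff_nsq _ _).differentiable (by simp) z).hasFDerivAt).fderiv

theorem inva_u0 : Inva rotX (u0 n) := fun z _ => by
  rw [dfn, iprod_dx, fderiv_u0, smul_apply, fderiv_nsq_Z _ _ (hZx n) (hZy n), smul_zero, map_zero]

/-! ### real coordinates -/

/-- the even indices -/
def i0 (j : Fin n) : Fin (2 * n) := ⟨2 * j, by omega⟩

/-- the odd indices -/
def i1 (j : Fin n) : Fin (2 * n) := ⟨2 * j + 1, by omega⟩

/-- half of the index -/
def half (i : Fin (2 * n)) : Fin n := ⟨i / 2, by omega⟩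

/-- the real coordinates of `ℂⁿ` -/
noncomputable def Lc : (Fin (2 * n) → ℝ) ≃L[ℝ] (Fin n → ℂ) :=
  LinearEquiv.toContinuousLinearEquiv
  { toFun := fun a j => ⟨a (i0 n j), a (i1 n j)⟩
    map_add' := fun a b => by
      funext j
      apply Complex.ext <;> simp
    map_smul' := fun c a => by
      funext j
      apply Complex.ext <;> simp
    invFun := fun z i => if (i : ℕ) % 2 = 0 then (z (half n i)).re else (z (half n i)).im
    left_inv := fun a => by
      funext i
      simp only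
      split_ifs with h
      · congr 1
        ext
        simp only [i0, half]
        omega
      · congr 1
        ext
        simp only [i1, half]
        omega
    right_inv := fun z => by
      funext j
      have h1 : half n (i0 n j) = j := by
        ext
        simp only [i0, half]
        omega
      have h2 : half n (i1 n j) = j := by
        ext
        simp only [i1, half]
        omega
      have h3 : ((i0 n j : Fin (2 * n)) : ℕ) % 2 = 0 := by simp only [i0]; omega
      have h4 : ¬ ((i1 n j : Fin (2 * n)) : ℕ) % 2 = 0 := by simp only [i1]; omega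
      simp only [h1, h2, if_pos h3, if_neg h4] }

theorem xc_Lc (j : Fin n) (a : Fin (2 * n) → ℝ) : xc n j (Lc n a) = a (i0 n j) := rfl

theorem yc_Lc (j : Fin n) (a : Fin (2 * n) → ℝ) : yc n j (Lc n a) = a (i1 n j) := rfl

theorem sum_pairs (f : Fin (2 * n) → ℝ) : ∑ i, f i = ∑ j : Fin n, (f (i0 n j) + f (i1 n j)) := by
  induction n with
  | zero => simp
  | succ n ih =>
    change ∑ i : Fin (2 * n + 2), f i = _
    rw [Fin.sum_univ_castSucc, Fin.sum_univ_castSucc, Fin.sum_univ_castSucc, add_assoc]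
    rw [ih fun i => f i.castSucc.castSucc]
    rfl

theorem nsq_Lc (a : Fin (2 * n) → ℝ) : nsq (xc n) (yc n) (Lc n a) = ∑ i, a i ^ 2 := by
  rw [sum_pairs]
  rfl

end Cn

section Integral

theorem deriv_chr_le {t : ℝ} (ht : t < 1 / 2) : deriv chr t = 0 := by
  have h : chr =ᶠ[𝓝 t] fun _ => 0 := by
    filter_upwards [eventually_lt_nhds ht] with s hs using chr_zero hs.le
  rw [h.deriv_eq]
  simp

theorem deriv_chr_ge {t : ℝ} (ht : 1 < t) : deriv chr t = 0 := by
  have h : chr =ᶠ[𝓝 t] fun _ => 1 := by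
    filter_upwards [eventually_gt_nhds ht] with s hs using chr_one hs.le
  rw [h.deriv_eq]
  simp

/-- the radial integral -/
theorem radial_integral :
    ∫ r in Ioi (0 : ℝ), r * deriv chr (r ^ 2) = 1 / 2 := by
  have hd : ∀ r : ℝ, HasDerivAt (fun r => (1 / 2) * chr (r ^ 2)) (r * deriv chr (r ^ 2)) r := by
    intro r
    have h1 := (contDiff_chr.differentiable (by simp) (r ^ 2)).hasDerivAt
    have h2 : HasDerivAt (fun r => chr (r ^ 2)) (deriv chr (r ^ 2) * (2 * r)) r := by
      have h3 : HasDerivAt (fun r : ℝ => r ^ 2) (2 * r) r := by simpa using hasDerivAt_pow 2 r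
      exact HasDerivAt.comp (h₂ := chr) r h1 h3
    refine (h2.const_mul (1 / 2)).congr_deriv ?_
    ring
  have hc : Continuous fun r : ℝ => r * deriv chr (r ^ 2) :=
    continuous_id.mul ((contDiff_chr.continuous_deriv (by simp)).comp (by fun_prop))
  have hcs : HasCompactSupport fun r : ℝ => r * deriv chr (r ^ 2) := by
    refine HasCompactSupport.intro (isCompact_closedBall (0 : ℝ) 1) fun r hr => ?_
    have h1 : 1 < r ^ 2 := by
      rw [mem_closedBall_zero_iff, not_le, Real.norm_eq_abs] at hr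
      nlinarith [sq_abs r]
    rw [deriv_chr_ge h1, mul_zero]
  have h := integral_Ioi_of_hasDerivAt_of_tendsto' (a := (0 : ℝ)) (m := 1 / 2)
    (fun r _ => hd r) (hc.integrable_of_hasCompactSupport hcs).integrableOn (by
      refine tendsto_const_nhds.congr' ?_
      filter_upwards [eventually_ge_atTop 1] with r hr
      rw [chr_one (by nlinarith), mul_one])
  rw [h, chr_zero (by norm_num)]
  norm_num

/-- the integral of the radial density -/
theorem density_integral (m : ℕ) :
    ∫ y : Fin (2 * (m + 1)) → ℝ, deriv chr (∑ i, y i ^ 2) *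
      (2 ^ (m + 1) * (m.factorial : ℝ) * ((∑ i, y i ^ 2) ^ m)⁻¹) = (2 * Real.pi) ^ (m + 1) := by
  set C : ℝ := 2 ^ (m + 1) * (m.factorial : ℝ) with hC
  set f : ℝ → ℝ := fun r => deriv chr (r ^ 2) * (C * ((r ^ 2) ^ m)⁻¹) with hf
  have h1 : ∫ y : Fin (2 * (m + 1)) → ℝ, deriv chr (∑ i, y i ^ 2) *
      (C * ((∑ i, y i ^ 2) ^ m)⁻¹) =
      ∫ x : EuclideanSpace ℝ (Fin (2 * (m + 1))), f ‖x‖ := by
    rw [← (PiLp.volume_preserving_toLp (Fin (2 * (m + 1)))).integral_comp
      (MeasurableEquiv.toLp 2 _).measurableEmbedding]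
    refine integral_congr_ae (Filter.Eventually.of_forall fun y => ?_)
    simp only [hf, EuclideanSpace.norm_sq_eq, Real.norm_eq_abs, sq_abs]
  have hfr : finrank ℝ (EuclideanSpace ℝ (Fin (2 * (m + 1)))) = 2 * (m + 1) := by simp
  have : Nontrivial (EuclideanSpace ℝ (Fin (2 * (m + 1)))) := by
    refine nontrivial_of_finrank_pos (R := ℝ) ?_
    rw [hfr]
    omega
  rw [h1, integral_fun_norm_addHaar (volume : Measure (EuclideanSpace ℝ (Fin (2 * (m + 1))))) f,
    hfr]
  have h2 : (volume : Measure (EuclideanSpace ℝ (Fin (2 * (m + 1))))).real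
      (Metric.ball 0 1) = Real.pi ^ (m + 1) / ((m + 1).factorial : ℝ) := by
    rw [Measure.real, InnerProductSpace.volume_ball_of_dim_even (k := m + 1) hfr]
    simp only [ENNReal.ofReal_one, one_pow, one_mul]
    exact ENNReal.toReal_ofReal (by positivity)
  have h3 : ∫ y in Ioi (0 : ℝ), y ^ (2 * (m + 1) - 1) • f y = C / 2 := by
    have h4 : ∀ y ∈ Ioi (0 : ℝ), y ^ (2 * (m + 1) - 1) • f y = C * (y * deriv chr (y ^ 2)) := by
      intro y hy
      have hy0 : (y : ℝ) ≠ 0 := (mem_Ioi.1 hy).ne'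
      have e : 2 * (m + 1) - 1 = 2 * m + 1 := by omega
      simp only [hf, smul_eq_mul, e, ← pow_mul]
      rw [pow_succ]
      field_simp
    rw [setIntegral_congr_fun measurableSet_Ioi h4, integral_const_mul, radial_integral]
    ring
  rw [h2, h3, hC]
  simp only [nsmul_eq_mul, smul_eq_mul, Nat.factorial_succ]
  push_cast
  have hm1 : ((m : ℝ) + 1) ≠ 0 := by positivity
  have hm2 : (m.factorial : ℝ) ≠ 0 := by positivity
  rw [mul_pow]
  field_simp

end Integral

end Vale.Agent.P231.EN.Std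

namespace Vale.Agent.P231.EN

open Vale.Agent.P231.Fm Vale.Agent.P231.EN.Std

/-- **the standard value** -/
theorem exists_std (m : ℕ) : ∃ (L : (Fin (2 * (m + 1)) → ℝ) ≃L[ℝ] (Fin (m + 1) → ℂ))
    (b0 : (Fin (m + 1) → ℂ) → Lam (Fin (m + 1) → ℂ)) (u0 : (Fin (m + 1) → ℂ) → ℝ),
    Conn rotX b0 ∧ Cut u0 ∧ Inva rotX u0 ∧
      |∫ y, evalForm (dfn u0 (L y) * om b0 m (L y)) (fun i => L (Pi.single i 1))| =
        (2 * Real.pi) ^ (m + 1) := by
  refine ⟨Lc (m + 1), beta0 (xc (m + 1)) (yc (m + 1)), u0 (m + 1), conn_c (m + 1),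
    cut_u0 (m + 1), inva_u0 (m + 1), ?_⟩
  have h : ∀ y : Fin (2 * (m + 1)) → ℝ,
      evalForm (dfn (u0 (m + 1)) (Lc (m + 1) y) * om (beta0 (xc (m + 1)) (yc (m + 1))) m
        (Lc (m + 1) y)) (fun i => Lc (m + 1) (Pi.single i 1)) =
      deriv chr (∑ i, y i ^ 2) *
      (2 ^ (m + 1) * (m.factorial : ℝ) * ((∑ i, y i ^ 2) ^ m)⁻¹) := by
    intro y
    by_cases hy : y = 0
    · subst hy
      have h1 : deriv chr 0 = 0 := deriv_chr_le (by norm_num)
      have h2 : dfn (u0 (m + 1)) (Lc (m + 1) 0) = 0 := by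
        rw [dfn, fderiv_u0, map_zero, nsq_zero, h1, zero_smul, map_zero]
      rw [h2, zero_mul]
      have h3 : (∑ i : Fin (2 * (m + 1)), (0 : Fin (2 * (m + 1)) → ℝ) i ^ 2) = 0 := by simp
      rw [h3, h1, zero_mul]
      simp only [evalForm_apply, map_zero]
    · have hz : Lc (m + 1) y ≠ 0 := by
        intro h
        exact hy ((Lc (m + 1)).injective (by rw [h, map_zero]))
      have hb : ∀ i, ((Pi.basisFun ℝ (Fin (2 * (m + 1)))).map (Lc (m + 1)).toLinearEquiv) i =
          Lc (m + 1) (Pi.single i 1) := by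
        intro i
        rw [Basis.map_apply, Pi.basisFun_apply]
        rfl
      have key := integrand_eq (xc (m + 1)) (yc (m + 1)) (χ := chr) (n := m + 1) (by omega)
        (nsq_pos (m + 1) hz) (contDiff_chr.differentiable (by simp) _)
        ((Pi.basisFun ℝ (Fin (2 * (m + 1)))).map (Lc (m + 1)).toLinearEquiv)
        (fun j i => by
          rw [hb, xc_Lc, Pi.single_apply, i0]
          simp only [Fin.ext_iff, eq_comm])
        (fun j i => by
          rw [hb, yc_Lc, Pi.single_apply, i1]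
          simp only [Fin.ext_iff, eq_comm])
      rw [nsq_Lc, Nat.add_sub_cancel] at key
      rw [← key]
      congr 1
      funext i
      exact (hb i).symm
  have h2 := density_integral m
  rw [integral_congr_ae (Filter.Eventually.of_forall h), h2]
  exact abs_of_pos (by positivity)

end Vale.Agent.P231.EN
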