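import Mathlib

/-!
# P231, block EN (a): circle equivariant maps `ℂⁿ \ 0 → V \ 0`

`V` is a real vector space with a (nonlinear) complex structure `J` whose orbits
`cos t v + sin t J v` are circles (great circle fibration).  We construct equivariant maps
`(Fin j → ℂ) \ 0 → V \ 0` for all `j` with `2 (j-1) < dim V`.
-/

open Module Set Filter
open scoped ContDiff Topology ComplexConjugate

noncomputable section

namespace Vale.Agent.P231.EN

variable {V : Type*} [NormedAddCommGroup V] [NormedSpace ℝ V]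

/-- a homogeneous map `J`, smooth off `0`, rotating each plane `span (v, J v)` by a right angle -/
structure GC (J : V → V) : Prop where
  smooth : ContDiffOn ℝ ∞ J {0}ᶜ
  hom : ∀ t : ℝ, 0 < t → ∀ v, J (t • v) = t • J v
  rot : ∀ v, ∀ c s : ℝ, c ^ 2 + s ^ 2 = 1 → J (c • v + s • J v) = -(s • v) + c • J v

/-- the action of complex numbers -/
def act (J : V → V) (c : ℂ) (v : V) : V := c.re • v + c.im • J v

section Act

variable {J : V → V}

theorem GC.zero (h : GC J) : J 0 = 0 := by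
  have := h.hom 2 (by norm_num) 0
  rw [smul_zero, two_smul] at this
  exact (left_eq_add.1 this)

theorem GC.rot' (h : GC J) (v : V) (a b : ℝ) : J (a • v + b • J v) = -(b • v) + a • J v := by
  by_cases h0 : a ^ 2 + b ^ 2 = 0
  · have ha : a = 0 := by nlinarith only [sq_nonneg a, sq_nonneg b, h0]
    have hb : b = 0 := by nlinarith only [sq_nonneg a, sq_nonneg b, h0]
    simp [ha, hb, h.zero]
  · have hpos : 0 < a ^ 2 + b ^ 2 := lt_of_le_of_ne (by positivity) (Ne.symm h0)
    set r := Real.sqrt (a ^ 2 + b ^ 2) with hr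
    have hr0 : 0 < r := Real.sqrt_pos.2 hpos
    have hr2 : r ^ 2 = a ^ 2 + b ^ 2 := Real.sq_sqrt hpos.le
    have h1 := h.rot v (a / r) (b / r) (by
      rw [div_pow, div_pow, ← add_div, ← hr2, div_self (by positivity)])
    have h2 : a • v + b • J v = r • ((a / r) • v + (b / r) • J v) := by
      rw [smul_add, smul_smul, smul_smul, mul_div_cancel₀ _ hr0.ne', mul_div_cancel₀ _ hr0.ne']
    rw [h2, h.hom r hr0, h1, smul_add, smul_neg, smul_smul, smul_smul, mul_div_cancel₀ _ hr0.ne',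
      mul_div_cancel₀ _ hr0.ne']

theorem GC.J_act (h : GC J) (c : ℂ) (v : V) : J (act J c v) = act J (Complex.I * c) v := by
  simp only [act]
  rw [h.rot']
  simp

theorem GC.act_act (h : GC J) (c d : ℂ) (v : V) : act J c (act J d v) = act J (c * d) v := by
  have := h.J_act d v
  rw [act, this]
  simp only [act, Complex.mul_re, Complex.mul_im, Complex.I_re, Complex.I_im]
  module

@[simp] theorem act_one (v : V) : act J 1 v = v := by simp [act]

theorem GC.act_zero (h : GC J) (c : ℂ) : act J c 0 = 0 := by simp [act, h.zero]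

theorem GC.act_ne (h : GC J) {c : ℂ} (hc : c ≠ 0) {v : V} (hv : v ≠ 0) : act J c v ≠ 0 := by
  intro h0
  have h1 := h.act_act c⁻¹ c v
  rw [h0, h.act_zero, inv_mul_cancel₀ hc, act_one] at h1
  exact hv h1.symm

theorem act_real (r : ℝ) (v : V) : act J (r : ℂ) v = r • v := by simp [act]

theorem GC.act_smul (h : GC J) (c : ℂ) {r : ℝ} (hr : 0 ≤ r) (v : V) :
    act J c (r • v) = r • act J c v := by
  rcases hr.eq_or_lt with h0 | h0
  · rw [← h0, zero_smul, zero_smul, h.act_zero]
  · simp only [act, h.hom r h0]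
    module

theorem GC.contDiffAt (h : GC J) {v : V} (hv : v ≠ 0) : ContDiffAt ℝ ∞ J v :=
  h.smooth.contDiffAt (isOpen_compl_singleton.mem_nhds hv)

end Act

/-- homogeneous equivariant maps, smooth and nonvanishing off `0` -/
structure Eqv (J : V → V) {j : ℕ} (G : (Fin j → ℂ) → V) : Prop where
  smooth : ContDiffOn ℝ ∞ G {0}ᶜ
  hom : ∀ t : ℝ, 0 < t → ∀ z, G (t • z) = t • G z
  eqv : ∀ c : ℂ, ‖c‖ = 1 → ∀ z, G (c • z) = act J c (G z)
  ne : ∀ z, z ≠ 0 → G z ≠ 0

/-- a smooth map defined off `0` from a space of smaller dimension misses a point -/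
theorem exists_avoid {E : Type*} [NormedAddCommGroup E] [NormedSpace ℝ E] [FiniteDimensional ℝ E]
    [FiniteDimensional ℝ V] {G : E → V} (hG : ContDiffOn ℝ ∞ G {0}ᶜ)
    (h : finrank ℝ E < finrank ℝ V) : ∃ b : V, b ≠ 0 ∧ ∀ z, z ≠ 0 → G z ≠ b := by
  have h1 : dimH (G '' {0}ᶜ) ≤ dimH ({0}ᶜ : Set E) := by
    refine dimH_image_le_of_locally_lipschitzOn fun x hx => ?_
    have h2 : ContDiffAt ℝ 1 G x :=
      (hG.contDiffAt (isOpen_compl_singleton.mem_nhds hx)).of_le (by exact_mod_cast le_top)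
    obtain ⟨K, t, ht, hK⟩ := h2.exists_lipschitzOnWith
    exact ⟨K, t, mem_nhdsWithin_of_mem_nhds ht, hK⟩
  have h2 : dimH ({0}ᶜ : Set E) ≤ finrank ℝ E := by
    rw [← Real.dimH_univ_eq_finrank E]
    exact dimH_mono (subset_univ _)
  have h3 : dimH (G '' {0}ᶜ) < finrank ℝ V :=
    (h1.trans h2).trans_lt (by exact_mod_cast h)
  have h4 := dense_compl_of_dimH_lt_finrank h3
  have hV : Nontrivial V := by
    rw [← finrank_pos_iff (R := ℝ)]
    omega
  obtain ⟨b0, hb0⟩ := exists_ne (0 : V)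
  obtain ⟨b, hb, hb'⟩ := h4.inter_open_nonempty {0}ᶜ isOpen_compl_singleton ⟨b0, hb0⟩
  exact ⟨b, hb, fun z hz h5 => hb' ⟨z, hz, h5⟩⟩

/-! ### The join construction -/

section Join

variable {J : V → V} {j : ℕ}

/-- sum of squares of the first coordinates -/
def sq1 (z : Fin (j + 1) → ℂ) : ℝ := ∑ i : Fin j, Complex.normSq (z i.castSucc)

/-- square of the last coordinate -/
def sq2 (z : Fin (j + 1) → ℂ) : ℝ := Complex.normSq (z (Fin.last j))

/-- the ratio -/
def tau (z : Fin (j + 1) → ℂ) : ℝ := sq2 z / (sq1 z + sq2 z)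

/-- the cut-off -/
def chi (z : Fin (j + 1) → ℂ) : ℝ := Real.smoothTransition (3 * tau z - 1)

theorem sq1_nonneg (z : Fin (j + 1) → ℂ) : 0 ≤ sq1 z :=
  Finset.sum_nonneg fun _ _ => Complex.normSq_nonneg _

theorem sq2_nonneg (z : Fin (j + 1) → ℂ) : 0 ≤ sq2 z := Complex.normSq_nonneg _

theorem sq2_pos {z : Fin (j + 1) → ℂ} (h : z (Fin.last j) ≠ 0) : 0 < sq2 z :=
  Complex.normSq_pos.2 h

theorem sq1_pos {z : Fin (j + 1) → ℂ} (h : Fin.init z ≠ 0) : 0 < sq1 z := by
  obtain ⟨i, hi⟩ := Function.ne_iff.1 h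
  refine lt_of_lt_of_le (Complex.normSq_pos.2 hi) ?_
  exact Finset.single_le_sum (f := fun i : Fin j => Complex.normSq (z i.castSucc))
    (fun _ _ => Complex.normSq_nonneg _) (Finset.mem_univ i)

theorem sq1_zero {z : Fin (j + 1) → ℂ} (h : Fin.init z = 0) : sq1 z = 0 := by
  refine Finset.sum_eq_zero fun i _ => ?_
  have : z i.castSucc = 0 := congrFun h i
  rw [this, map_zero]

theorem cases_ne {z : Fin (j + 1) → ℂ} (h : z ≠ 0) : Fin.init z ≠ 0 ∨ z (Fin.last j) ≠ 0 := by
  by_contra h'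
  push Not at h'
  apply h
  funext i
  refine Fin.lastCases h'.2 (fun i => congrFun h'.1 i) i

theorem sq_sum_pos {z : Fin (j + 1) → ℂ} (h : z ≠ 0) : 0 < sq1 z + sq2 z := by
  rcases cases_ne h with h1 | h1
  · exact add_pos_of_pos_of_nonneg (sq1_pos h1) (sq2_nonneg z)
  · exact add_pos_of_nonneg_of_pos (sq1_nonneg z) (sq2_pos h1)

theorem contDiff_normSq : ContDiff ℝ ∞ (fun w : ℂ => Complex.normSq w) := by
  have : (fun w : ℂ => Complex.normSq w) = fun w => w.re * w.re + w.im * w.im := by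
    funext w; exact Complex.normSq_apply w
  rw [this]
  exact (Complex.reCLM.contDiff.mul Complex.reCLM.contDiff).add
    (Complex.imCLM.contDiff.mul Complex.imCLM.contDiff)

theorem contDiff_sq1 : ContDiff ℝ ∞ (sq1 : (Fin (j + 1) → ℂ) → ℝ) :=
  ContDiff.sum fun i _ => contDiff_normSq.comp (contDiff_apply ℝ ℂ i.castSucc)

theorem contDiff_sq2 : ContDiff ℝ ∞ (sq2 : (Fin (j + 1) → ℂ) → ℝ) :=
  contDiff_normSq.comp (contDiff_apply ℝ ℂ (Fin.last j))

theorem contDiffAt_tau {z : Fin (j + 1) → ℂ} (h : z ≠ 0) : ContDiffAt ℝ ∞ tau z :=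
  contDiff_sq2.contDiffAt.div (contDiff_sq1.contDiffAt.add contDiff_sq2.contDiffAt)
    (sq_sum_pos h).ne'

theorem contDiffAt_chi {z : Fin (j + 1) → ℂ} (h : z ≠ 0) : ContDiffAt ℝ ∞ chi z :=
  Real.smoothTransition.contDiffAt.comp z
    ((contDiffAt_const.mul (contDiffAt_tau h)).sub contDiffAt_const)

theorem chi_nonneg (z : Fin (j + 1) → ℂ) : 0 ≤ chi z := Real.smoothTransition.nonneg _

theorem chi_le_one (z : Fin (j + 1) → ℂ) : chi z ≤ 1 := Real.smoothTransition.le_one _

theorem tau_smul {t : ℝ} (ht : 0 < t) (z : Fin (j + 1) → ℂ) : tau (t • z) = tau z := by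
  have h1 : ∀ w : ℂ, Complex.normSq (t • w) = t ^ 2 * Complex.normSq w := by
    intro w
    rw [Complex.real_smul, Complex.normSq_mul, Complex.normSq_ofReal]; ring
  have h2 : sq1 (t • z) = t ^ 2 * sq1 z := by
    simp only [sq1, Pi.smul_apply, h1, Finset.mul_sum]
  have h3 : sq2 (t • z) = t ^ 2 * sq2 z := by
    simp only [sq2, Pi.smul_apply, h1]
  rw [tau, tau, h2, h3, ← mul_add, mul_div_mul_left _ _ (by positivity)]

theorem tau_csmul {c : ℂ} (hc : ‖c‖ = 1) (z : Fin (j + 1) → ℂ) : tau (c • z) = tau z := by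
  have h1 : ∀ w : ℂ, Complex.normSq (c • w) = Complex.normSq w := by
    intro w
    rw [smul_eq_mul, Complex.normSq_mul, Complex.normSq_eq_norm_sq c, hc]; ring
  simp only [tau, sq1, sq2, Pi.smul_apply, h1]

/-- unit part of a complex number -/
def un (w : ℂ) : ℂ := w / (‖w‖ : ℂ)

theorem norm_un {w : ℂ} (hw : w ≠ 0) : ‖un w‖ = 1 := by
  rw [un, norm_div, Complex.norm_real, norm_norm, div_self (norm_ne_zero_iff.2 hw)]

theorem contDiffAt_un {w : ℂ} (hw : w ≠ 0) : ContDiffAt ℝ ∞ un w := by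
  have h1 : ContDiffAt ℝ ∞ (fun w : ℂ => ‖w‖⁻¹ • w) w :=
    ((contDiffAt_norm ℝ hw).inv (norm_ne_zero_iff.2 hw)).smul contDiffAt_id
  refine h1.congr_of_eventuallyEq (Eventually.of_forall fun w => ?_)
  change un w = ‖w‖⁻¹ • w
  rw [un, Complex.real_smul, Complex.ofReal_inv, div_eq_inv_mul]

/-- the inner map -/
def Kmap (G : (Fin j → ℂ) → V) (a : V) (z : Fin (j + 1) → ℂ) : V :=
  (1 - chi z) • G (conj (un (z (Fin.last j))) • Fin.init z) + (chi z * ‖z (Fin.last j)‖) • a

open Classical in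
/-- the join map -/
def join (J : V → V) (G : (Fin j → ℂ) → V) (a : V) (z : Fin (j + 1) → ℂ) : V :=
  if z (Fin.last j) = 0 then G (Fin.init z) else act J (un (z (Fin.last j))) (Kmap G a z)

variable {G : (Fin j → ℂ) → V} {a : V}

theorem conj_un_mul {w : ℂ} (hw : w ≠ 0) : un w * conj (un w) = 1 := by
  rw [Complex.mul_conj, Complex.normSq_eq_norm_sq, norm_un hw]; norm_num

theorem conj_un_mul' {w : ℂ} (hw : w ≠ 0) : conj (un w) * un w = 1 := by
  rw [mul_comm, conj_un_mul hw]

theorem norm_conj_un {w : ℂ} (hw : w ≠ 0) : ‖conj (un w)‖ = 1 := by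
  rw [RCLike.norm_conj, norm_un hw]

theorem Eqv.zero (hG : Eqv J G) : G 0 = 0 := by
  have := hG.hom 2 (by norm_num) 0
  rw [smul_zero, two_smul] at this
  exact (left_eq_add.1 this)

theorem chi_eq_zero {z : Fin (j + 1) → ℂ} (h : tau z ≤ 1 / 3) : chi z = 0 :=
  Real.smoothTransition.zero_of_nonpos (by linarith)

theorem chi_eq_one {z : Fin (j + 1) → ℂ} (h : 2 / 3 ≤ tau z) : chi z = 1 :=
  Real.smoothTransition.one_of_one_le (by linarith)

/-- where the last coordinate dominates, `join` is `act w a` -/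
theorem tau_eq_one {z : Fin (j + 1) → ℂ} (h : Fin.init z = 0) (h2 : z (Fin.last j) ≠ 0) :
    tau z = 1 := by
  rw [tau, sq1_zero h, zero_add, div_self (sq2_pos h2).ne']

theorem tau_eq_zero {z : Fin (j + 1) → ℂ} (h : z (Fin.last j) = 0) : tau z = 0 := by
  rw [tau, sq2, h, map_zero, zero_div]

theorem join_of_chi (hJ : GC J) (hG : Eqv J G) {z : Fin (j + 1) → ℂ} (h : chi z = 0) :
    join J G a z = G (Fin.init z) := by
  rw [join]
  split_ifs with h0
  · rfl
  · rw [Kmap, h, sub_zero, one_smul, zero_mul, zero_smul, add_zero,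
      hG.eqv _ (norm_conj_un h0), hJ.act_act, conj_un_mul h0, act_one]

theorem Kmap_ne (hG : Eqv J G) (ha : a ≠ 0) (hav : ∀ y, y ≠ 0 → G y ≠ -a)
    {z : Fin (j + 1) → ℂ} (hz : z (Fin.last j) ≠ 0) : Kmap G a z ≠ 0 := by
  intro h0
  have hn : 0 < ‖z (Fin.last j)‖ := norm_pos_iff.2 hz
  by_cases hy : Fin.init z = 0
  · rw [Kmap, chi_eq_one (by rw [tau_eq_one hy hz]; norm_num), sub_self, zero_smul, zero_add,
      one_mul] at h0
    exact (smul_ne_zero hn.ne' ha) h0
  · set y := conj (un (z (Fin.last j))) • Fin.init z with hyd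
    have hc : conj (un (z (Fin.last j))) ≠ 0 := by
      rw [← norm_ne_zero_iff, norm_conj_un hz]; exact one_ne_zero
    have hy0 : y ≠ 0 := smul_ne_zero hc hy
    have h1 : (1 - chi z) • G y + (chi z * ‖z (Fin.last j)‖) • a = 0 := h0
    rcases (chi_nonneg z).eq_or_lt with h2 | h2
    · rw [← h2, sub_zero, one_smul, zero_mul, zero_smul, add_zero] at h1
      exact hG.ne y hy0 h1
    · have hr : 0 < chi z * ‖z (Fin.last j)‖ := mul_pos h2 hn
      rcases (chi_le_one z).eq_or_lt with h3 | h3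
      · rw [h3, sub_self, zero_smul, zero_add, one_mul] at h1
        exact (smul_ne_zero hn.ne' ha) h1
      · have h4 : 0 < (1 - chi z) / (chi z * ‖z (Fin.last j)‖) := div_pos (by linarith) hr
        have h5 := hG.hom _ h4 y
        have h6 : ((1 - chi z) / (chi z * ‖z (Fin.last j)‖)) • G y = -a := by
          rw [div_eq_inv_mul, ← smul_smul, eq_neg_of_add_eq_zero_left h1, smul_neg, smul_smul,
            inv_mul_cancel₀ hr.ne', one_smul]
        refine hav _ ?_ (h5.trans h6)
        exact smul_ne_zero h4.ne' hy0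

theorem contDiff_init : ContDiff ℝ ∞ (fun z : Fin (j + 1) → ℂ => (Fin.init z : Fin j → ℂ)) :=
  contDiff_pi.2 fun i => contDiff_apply ℝ ℂ i.castSucc

theorem contDiffAt_Kmap (hG : Eqv J G) {z : Fin (j + 1) → ℂ} (hz : z (Fin.last j) ≠ 0) :
    ContDiffAt ℝ ∞ (Kmap G a) z := by
  have hz0 : z ≠ 0 := fun h => hz (by rw [h]; rfl)
  have hl : ContDiffAt ℝ ∞ (fun z : Fin (j + 1) → ℂ => z (Fin.last j)) z :=
    (contDiff_apply ℝ ℂ (Fin.last j)).contDiffAt
  have h2 : ContDiffAt ℝ ∞ (fun z : Fin (j + 1) → ℂ => (chi z * ‖z (Fin.last j)‖) • a) z :=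
    ((contDiffAt_chi hz0).mul ((contDiffAt_norm ℝ hz).comp z hl)).smul contDiffAt_const
  by_cases hy : Fin.init z = 0
  · have h3 : ∀ᶠ z' in 𝓝 z, 2 / 3 < tau z' := by
      refine (contDiffAt_tau hz0).continuousAt.eventually (lt_mem_nhds ?_)
      rw [tau_eq_one hy hz]; norm_num
    refine h2.congr_of_eventuallyEq ?_
    filter_upwards [h3] with z' h4
    rw [Kmap, chi_eq_one h4.le, sub_self, zero_smul, zero_add]
  · have hc : conj (un (z (Fin.last j))) ≠ 0 := by
      rw [← norm_ne_zero_iff, norm_conj_un hz]; exact one_ne_zero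
    have hy0 : conj (un (z (Fin.last j))) • Fin.init z ≠ 0 := smul_ne_zero hc hy
    have hu : ContDiffAt ℝ ∞ (fun z : Fin (j + 1) → ℂ => un (z (Fin.last j))) z :=
      ContDiffAt.comp (g := un) z (contDiffAt_un hz) hl
    have h5 : ContDiffAt ℝ ∞ (fun z : Fin (j + 1) → ℂ => conj (un (z (Fin.last j)))) z :=
      Complex.conjCLE.contDiff.contDiffAt.comp z hu
    have h6 : ContDiffAt ℝ ∞ (fun z : Fin (j + 1) → ℂ =>
        conj (un (z (Fin.last j))) • (Fin.init z : Fin j → ℂ)) z := by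
      refine contDiffAt_pi.2 fun i => ?_
      exact h5.mul (contDiff_apply ℝ ℂ i.castSucc).contDiffAt
    have h7 : ContDiffAt ℝ ∞ G (conj (un (z (Fin.last j))) • Fin.init z) :=
      hG.smooth.contDiffAt (isOpen_compl_singleton.mem_nhds hy0)
    exact ((contDiffAt_const.sub (contDiffAt_chi hz0)).smul (h7.comp z h6)).add h2

theorem contDiffAt_join (hJ : GC J) (hG : Eqv J G) (ha : a ≠ 0) (hav : ∀ y, y ≠ 0 → G y ≠ -a)
    {z : Fin (j + 1) → ℂ} (hz0 : z ≠ 0) : ContDiffAt ℝ ∞ (join J G a) z := by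
  by_cases hz : z (Fin.last j) = 0
  · have hy : Fin.init z ≠ 0 := (cases_ne hz0).resolve_right (not_not.2 hz)
    have h3 : ∀ᶠ z' in 𝓝 z, tau z' < 1 / 3 := by
      refine (contDiffAt_tau hz0).continuousAt.eventually (gt_mem_nhds ?_)
      rw [tau_eq_zero hz]; norm_num
    have h4 : ContDiffAt ℝ ∞ (fun z : Fin (j + 1) → ℂ => G (Fin.init z)) z :=
      (hG.smooth.contDiffAt (isOpen_compl_singleton.mem_nhds hy)).comp z contDiff_init.contDiffAt
    refine h4.congr_of_eventuallyEq ?_
    filter_upwards [h3] with z' h5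
    exact join_of_chi hJ hG (chi_eq_zero h5.le)
  · have hl : ContDiffAt ℝ ∞ (fun z : Fin (j + 1) → ℂ => z (Fin.last j)) z :=
      (contDiff_apply ℝ ℂ (Fin.last j)).contDiffAt
    have hu : ContDiffAt ℝ ∞ (fun z : Fin (j + 1) → ℂ => un (z (Fin.last j))) z :=
      ContDiffAt.comp (g := un) z (contDiffAt_un hz) hl
    have hK := contDiffAt_Kmap (a := a) hG hz
    have hJK : ContDiffAt ℝ ∞ (fun z => J (Kmap G a z)) z :=
      (hJ.contDiffAt (Kmap_ne hG ha hav hz)).comp z hK
    have h1 : ContDiffAt ℝ ∞ (fun z : Fin (j + 1) → ℂ =>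
        (un (z (Fin.last j))).re • Kmap G a z + (un (z (Fin.last j))).im • J (Kmap G a z)) z :=
      ((Complex.reCLM.contDiff.contDiffAt.comp z hu).smul hK).add
        ((Complex.imCLM.contDiff.contDiffAt.comp z hu).smul hJK)
    refine h1.congr_of_eventuallyEq ?_
    have h2 : ∀ᶠ z' : Fin (j + 1) → ℂ in 𝓝 z, z' (Fin.last j) ≠ 0 :=
      hl.continuousAt.eventually (isOpen_compl_singleton.mem_nhds hz)
    filter_upwards [h2] with z' h3
    rw [join, if_neg h3, act]

theorem un_smul {t : ℝ} (ht : 0 < t) {w : ℂ} : un (t • w) = un w := by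
  rw [un, un, Complex.real_smul, norm_mul, Complex.norm_real, Real.norm_eq_abs, abs_of_pos ht,
    Complex.ofReal_mul, mul_div_mul_left]
  exact_mod_cast ht.ne'

theorem un_cmul {c : ℂ} (hc : ‖c‖ = 1) (w : ℂ) : un (c * w) = c * un w := by
  rw [un, un, norm_mul, hc, one_mul, mul_div_assoc]

/-- the join of an equivariant map with an orbit is equivariant -/
theorem join_eqv (hJ : GC J) (hG : Eqv J G) (ha : a ≠ 0) (hav : ∀ y, y ≠ 0 → G y ≠ -a) :
    Eqv J (join J G a) where
  smooth := fun z hz => (contDiffAt_join hJ hG ha hav hz).contDiffWithinAt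
  hom := by
    intro t ht z
    have hi : Fin.init (t • z) = t • Fin.init z := rfl
    have hlast : (t • z) (Fin.last j) = t • z (Fin.last j) := rfl
    by_cases h0 : z (Fin.last j) = 0
    · rw [join, join, if_pos h0, if_pos (by rw [hlast, h0, smul_zero]), hi, hG.hom t ht]
    · have h0' : (t • z) (Fin.last j) ≠ 0 := by rw [hlast]; exact smul_ne_zero ht.ne' h0
      rw [join, join, if_neg h0, if_neg h0', hlast, un_smul ht, ← hJ.act_smul _ ht.le]
      congr 1
      have hchi : chi (t • z) = chi z := by rw [chi, chi, tau_smul ht]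
      rw [Kmap, Kmap, hchi, hi, hlast, un_smul ht, smul_comm _ t (Fin.init z), hG.hom t ht,
        norm_smul, Real.norm_eq_abs, abs_of_pos ht]
      module
  eqv := by
    intro c hc z
    have hc0 : c ≠ 0 := by rw [← norm_ne_zero_iff, hc]; exact one_ne_zero
    have hi : Fin.init (c • z) = c • Fin.init z := rfl
    have hlast : (c • z) (Fin.last j) = c * z (Fin.last j) := rfl
    by_cases h0 : z (Fin.last j) = 0
    · rw [join, join, if_pos h0, if_pos (by rw [hlast, h0, mul_zero]), hi, hG.eqv c hc]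
    · have h0' : (c • z) (Fin.last j) ≠ 0 := by rw [hlast]; exact mul_ne_zero hc0 h0
      rw [join, join, if_neg h0, if_neg h0', hlast, un_cmul hc, ← hJ.act_act]
      congr 2
      have hchi : chi (c • z) = chi z := by rw [chi, chi, tau_csmul hc]
      have h1 : conj (c * un (z (Fin.last j))) • c • Fin.init z
          = conj (un (z (Fin.last j))) • Fin.init z := by
        rw [smul_smul]
        congr 1
        have h2 : conj c * c = 1 := by
          rw [mul_comm, Complex.mul_conj, Complex.normSq_eq_norm_sq, hc]; norm_num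
        rw [map_mul]
        linear_combination (conj (un (z (Fin.last j)))) * h2
      rw [Kmap, Kmap, hchi, hi, hlast, un_cmul hc, h1, norm_mul, hc, one_mul]
  ne := by
    intro z hz
    rw [join]
    split_ifs with h0
    · exact hG.ne _ ((cases_ne hz).resolve_right (not_not.2 h0))
    · refine hJ.act_ne ?_ (Kmap_ne hG ha hav h0)
      rw [← norm_ne_zero_iff, norm_un h0]; exact one_ne_zero

/-- the base case -/
theorem base_eqv (hJ : GC J) {v : V} (hv : v ≠ 0) :
    Eqv J (fun z : Fin 1 → ℂ => act J (z 0) v) where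
  smooth := by
    refine ContDiff.contDiffOn ?_
    exact ((Complex.reCLM.contDiff.comp (contDiff_apply ℝ ℂ 0)).smul contDiff_const).add
      ((Complex.imCLM.contDiff.comp (contDiff_apply ℝ ℂ 0)).smul contDiff_const)
  hom := by
    intro t ht z
    simp only [act, Pi.smul_apply, Complex.real_smul, Complex.mul_re, Complex.mul_im,
      Complex.ofReal_re, Complex.ofReal_im]
    module
  eqv := by
    intro c hc z
    rw [hJ.act_act]
    rfl
  ne := by
    intro z hz
    refine hJ.act_ne (fun h => hz ?_) hv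
    funext i
    rw [Subsingleton.elim i 0, h]
    rfl

/-- existence of equivariant maps -/
theorem exists_eqv [FiniteDimensional ℝ V] (hJ : GC J) (j : ℕ) (h : 2 * j < finrank ℝ V) :
    ∃ G : (Fin (j + 1) → ℂ) → V, Eqv J G := by
  induction j with
  | zero =>
    have hV : Nontrivial V := by
      rw [← finrank_pos_iff (R := ℝ)]
      omega
    obtain ⟨v, hv⟩ := exists_ne (0 : V)
    exact ⟨_, base_eqv hJ hv⟩
  | succ j ih =>
    obtain ⟨G, hG⟩ := ih (by omega)
    have hf : finrank ℝ (Fin (j + 1) → ℂ) < finrank ℝ V := by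
      rw [finrank_pi_fintype]
      simp only [Complex.finrank_real_complex, Finset.sum_const, Finset.card_univ,
        Fintype.card_fin, smul_eq_mul]
      omega
    obtain ⟨b, hb, hb'⟩ := exists_avoid hG.smooth hf
    exact ⟨join J G (-b), join_eqv hJ hG (neg_ne_zero.2 hb) (by simpa using hb')⟩

end Join

end Vale.Agent.P231.EN
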