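import Vale.Agent.P231.EN.Main
import Vale.Agent.P231.EN.Std

/-!
# P231, block EN: the Euler number bound, final form
-/

set_option linter.unusedSectionVars false

open Module Set Filter MeasureTheory
open scoped ContDiff Topology

noncomputable section

namespace Vale.Agent.P231.EN

open Vale.Agent.P231.Fm

variable {E : Type*} [NormedAddCommGroup E] [InnerProductSpace ℝ E] [FiniteDimensional ℝ E]
  [MeasurableSpace E] [BorelSpace E] {J : E → E} {b : E → Lam E} {u : E → ℝ}

/-- an integer multiple of `∫ du ∧ b (db)^m` is `± (2π)^(m+1)` -/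
theorem euler_mul {m : ℕ} (o : OrthonormalBasis (Fin (2 * (m + 1))) ℝ E)
    (hJ : GC J) (hb : Conn J b) (hu : Cut u) :
    ∃ d : ℤ, |(d : ℝ) * ∫ x, evalForm (dfn u x * om b m x) o| = (2 * Real.pi) ^ (m + 1) :=
  euler_bound_of o (exists_std m) hJ hb hu

/-- **the Euler number bound** -/
theorem euler_bound {m : ℕ} (o : OrthonormalBasis (Fin (2 * (m + 1))) ℝ E)
    (hJ : GC J) (hb : Conn J b) (hu : Cut u) :
    |∫ x, evalForm (dfn u x * om b m x) o| ≤ (2 * Real.pi) ^ (m + 1) := by
  obtain ⟨d, hd⟩ := euler_mul o hJ hb hu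
  have hpos : 0 < (2 * Real.pi) ^ (m + 1) := by positivity
  have hd0 : d ≠ 0 := by
    rintro rfl
    rw [Int.cast_zero, zero_mul, abs_zero] at hd
    exact hpos.ne hd
  have h1 : (1 : ℝ) ≤ |(d : ℝ)| := by
    have := Int.one_le_abs hd0
    exact_mod_cast this
  rw [← hd, abs_mul]
  exact le_mul_of_one_le_left (abs_nonneg _) h1

/-- the Euler number bound for an arbitrary enumeration of an orthonormal basis -/
theorem euler_bound' {n N : ℕ} (hn : 1 ≤ n) (hN : N = 2 * n) (o : OrthonormalBasis (Fin N) ℝ E)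
    (hJ : GC J) (hb : Conn J b) (hu : Cut u) :
    |∫ x, evalForm (dx (fderiv ℝ u x) * b x * (extd b x) ^ (n - 1)) o| ≤ (2 * Real.pi) ^ n := by
  subst hN
  obtain ⟨m, rfl⟩ : ∃ m, n = m + 1 := ⟨n - 1, by omega⟩
  have h1 := euler_bound o hJ hb hu
  have h2 : ∀ x, dfn u x * om b m x = dx (fderiv ℝ u x) * b x * (extd b x) ^ (m + 1 - 1) := by
    intro x
    rw [dfn, om, Nat.add_sub_cancel, mul_assoc]
  simpa only [h2] using h1

end Vale.Agent.P231.EN
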