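import Vale.Agent.P231.Fm.Fib

/-!
# P231, block EN (c): connection forms of a nonvanishing vector field

Top-degree forms killed by a nonzero vector vanish; the integral of `du ∧ b ∧ (db)^m` does not
depend on the cut-off `u` nor on the connection form `b`.
-/

set_option linter.unusedSectionVars false

open Module Set Filter MeasureTheory
open scoped ContDiff Topology

noncomputable section

namespace Vale.Agent.P231.EN

open Vale.Agent.P231.Fm

variable {E : Type*} [NormedAddCommGroup E] [NormedSpace ℝ E] [FiniteDimensional ℝ E]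

/-- a form of top degree killed by a nonzero vector vanishes -/
theorem evalForm_eq_zero {k : ℕ} (hk : finrank ℝ E ≤ k) {X : E} (hX : X ≠ 0) {w : Lam E}
    (hw : iprod X w = 0) (v : Fin k → E) : evalForm w v = 0 := by
  obtain ⟨a, ha⟩ := SeparatingDual.exists_eq_one (R := ℝ) hX
  have h1 : evalForm (dx a * w) (Fin.cons X v : Fin (k + 1) → E) = 0 := by
    refine AlternatingMap.map_linearDependent _ _ fun h => ?_
    have := h.fintype_card_le_finrank
    rw [Fintype.card_fin] at this
    omega
  have h2 : evalForm (dx a * w) (Fin.cons X v : Fin (k + 1) → E)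
      = aug (cont v (iprod X (dx a * w))) := by
    rw [evalForm_apply, cont_succ]
    rfl
  rw [h2, iprod_dx_mul, ha, hw, one_smul, mul_zero, sub_zero] at h1
  exact h1

theorem iprod_pow {X : E} {w : Lam E} (hw : iprod X w = 0) (m : ℕ) : iprod X (w ^ m) = 0 := by
  induction m with
  | zero => rw [pow_zero, iprod_one]
  | succ m ih => rw [pow_succ, iprod_mul, ih, hw, zero_mul, mul_zero, add_zero]

theorem iprod_mul_zero {X : E} {w v : Lam E} (hw : iprod X w = 0) (hv : iprod X v = 0) :
    iprod X (w * v) = 0 := by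
  rw [iprod_mul, hw, hv, zero_mul, mul_zero, add_zero]

theorem extd_pow {w : E → Lam E} {x : E} (hw : DifferentiableAt ℝ w x) (h : extd w x = 0) (m : ℕ) :
    extd (fun y => w y ^ m) x = 0 := by
  induction m with
  | zero => simp only [pow_zero, extd_const]
  | succ m ih =>
    simp only [pow_succ]
    have h1 : DifferentiableAt ℝ (fun y => w y ^ m) x := hw.fun_pow m
    rw [extd_mul h1 hw, ih, h, zero_mul, mul_zero, add_zero]

/-- connection form of the vector field `X` off the origin -/
structure Conn (X : E → E) (b : E → Lam E) : Prop where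
  smooth : ∀ x, x ≠ 0 → ContDiffAt ℝ ∞ b x
  odd : ∀ x, x ≠ 0 → inv (b x) = -b x
  one : ∀ x, x ≠ 0 → iprod (X x) (b x) = 1
  zero : ∀ x, x ≠ 0 → iprod (X x) (extd b x) = 0

/-- a cut-off function, `0` near the origin and `1` near infinity -/
structure Cut (u : E → ℝ) : Prop where
  smooth : ContDiff ℝ ∞ u
  near : ∀ᶠ x in 𝓝 0, u x = 0
  far : ∃ K : Set E, IsCompact K ∧ ∀ x ∉ K, u x = 1

/-- a smooth form with compact support off the origin -/
structure Supp (s : E → Lam E) : Prop where
  smooth : ContDiff ℝ ∞ s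
  near : ∀ᶠ x in 𝓝 0, s x = 0
  comp : HasCompactSupport s

theorem Supp.mul {s w : E → Lam E} (hs : Supp s) (hw : ∀ x, x ≠ 0 → ContDiffAt ℝ ∞ w x) :
    Supp (fun x => s x * w x) where
  smooth := by
    refine contDiff_iff_contDiffAt.2 fun x => ?_
    by_cases hx : x = 0
    · subst hx
      have h1 : (fun x => s x * w x) =ᶠ[𝓝 0] fun _ => 0 := by
        filter_upwards [hs.near] with x hx
        rw [hx, zero_mul]
      exact contDiffAt_const.congr_of_eventuallyEq h1
    · exact hs.smooth.contDiffAt.mul (hw x hx)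
  near := by
    filter_upwards [hs.near] with x hx
    rw [hx, zero_mul]
  comp := hs.comp.mul_right

theorem Supp.extd {s : E → Lam E} (hs : Supp s) : Supp (extd s) where
  smooth := contDiff_iff_contDiffAt.2 fun x => contDiffAt_extd (n := ∞) hs.smooth.contDiffAt
    (by norm_num)
  near := by
    filter_upwards [hs.near.eventually_nhds] with x hx
    have h1 : s =ᶠ[𝓝 x] fun _ => (0 : Lam E) := hx
    rw [extd_congr h1, extd_const]
  comp := by
    have h1 : HasCompactSupport (fderiv ℝ s) := hs.comp.fderiv ℝ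
    exact h1.comp_left (g := dLin) (map_zero _)

theorem Supp.integrable {s : E → Lam E} [MeasurableSpace E] [BorelSpace E] (μ : Measure E)
    [μ.IsAddHaarMeasure] (hs : Supp s) {k : ℕ} (v : Fin k → E) :
    Integrable (fun x => evalForm (s x) v) μ := by
  have h1 : Continuous fun x => evalL v (s x) := (evalL v).continuous.comp hs.smooth.continuous
  have h2 : HasCompactSupport fun x => evalL v (s x) :=
    hs.comp.comp_left (g := evalL v) (map_zero _)
  exact h1.integrable_of_hasCompactSupport h2

/-- the differential of a function as a form -/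
def dfn (u : E → ℝ) (x : E) : Lam E := dx (fderiv ℝ u x)

theorem contDiff_dfn {u : E → ℝ} (hu : ContDiff ℝ ∞ u) : ContDiff ℝ ∞ (dfn u) :=
  (dx (E := E)).contDiff.comp (hu.fderiv_right (m := ∞) (by norm_num))

theorem Cut.supp {u : E → ℝ} (hu : Cut u) : Supp (dfn u) where
  smooth := contDiff_dfn hu.smooth
  near := by
    filter_upwards [hu.near.eventually_nhds] with x hx
    have h1 : u =ᶠ[𝓝 x] fun _ => (0 : ℝ) := hx
    rw [dfn, h1.fderiv_eq, fderiv_const_apply, map_zero]
  comp := by
    obtain ⟨K, hK, h1⟩ := hu.far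
    refine HasCompactSupport.intro hK fun x hx => ?_
    have h2 : u =ᶠ[𝓝 x] fun _ => (1 : ℝ) := by
      filter_upwards [hK.isClosed.isOpen_compl.mem_nhds hx] with y hy using h1 y hy
    rw [dfn, h2.fderiv_eq, fderiv_const_apply, map_zero]

theorem extd_dfn {u : E → ℝ} (hu : ContDiff ℝ ∞ u) (x : E) : extd (dfn u) x = 0 := by
  have h1 : dfn u = extd (fn u) := by
    funext y
    rw [extd_fn (hu.differentiable (by simp) y), dfn]
  have h2 : ContDiff ℝ ∞ (fn u) := by
    have : fn u = fun y => u y • (1 : Lam E) := by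
      funext y; rw [fn, Algebra.algebraMap_eq_smul_one]
    rw [this]
    exact ContDiff.smul hu (contDiff_const (𝕜 := ℝ) (c := (1 : Lam E)))
  rw [h1]
  exact Fm.extd_extd (h2.contDiffAt.of_le (by norm_cast))

theorem inv_dfn (u : E → ℝ) (x : E) : inv (dfn u x) = -dfn u x := inv_dx _

variable {X : E → E} {b b' : E → Lam E}

theorem Conn.diff (hb : Conn X b) {x : E} (hx : x ≠ 0) : DifferentiableAt ℝ b x :=
  (hb.smooth x hx).differentiableAt (by simp)

theorem Conn.smooth_extd (hb : Conn X b) {x : E} (hx : x ≠ 0) : ContDiffAt ℝ ∞ (extd b) x :=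
  contDiffAt_extd (hb.smooth x hx) (by norm_num)

theorem Conn.diff_extd (hb : Conn X b) {x : E} (hx : x ≠ 0) : DifferentiableAt ℝ (extd b) x :=
  (hb.smooth_extd hx).differentiableAt (by simp)

theorem Conn.extd_extd (hb : Conn X b) {x : E} (hx : x ≠ 0) : Fm.extd (Fm.extd b) x = 0 :=
  Fm.extd_extd ((hb.smooth x hx).of_le (by norm_cast))

theorem Conn.inv_extd (hb : Conn X b) {x : E} (hx : x ≠ 0) : inv (extd b x) = extd b x := by
  have h1 := extd_inv (hb.diff hx)
  have h2 : (fun y => inv (b y)) =ᶠ[𝓝 x] fun y => -b y := by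
    filter_upwards [isOpen_compl_singleton.mem_nhds (show x ∈ ({0}ᶜ : Set E) from hx)] with y hy
    exact hb.odd y hy
  rw [extd_congr h2, extd_neg] at h1
  exact (neg_injective h1).symm

/-- the form `b (db)^m` -/
def om (b : E → Lam E) (m : ℕ) (x : E) : Lam E := b x * extd b x ^ m

theorem Conn.smooth_om (hb : Conn X b) (m : ℕ) {x : E} (hx : x ≠ 0) :
    ContDiffAt ℝ ∞ (om b m) x :=
  (hb.smooth x hx).mul ((hb.smooth_extd hx).pow m)

theorem Conn.extd_om (hb : Conn X b) (m : ℕ) {x : E} (hx : x ≠ 0) :
    extd (om b m) x = extd b x ^ (m + 1) := by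
  have h1 : DifferentiableAt ℝ (fun y => extd b y ^ m) x := (hb.diff_extd hx).fun_pow m
  have h2 : extd (om b m) x = _ := extd_mul (hb.diff hx) h1
  rw [h2, extd_pow (hb.diff_extd hx) (hb.extd_extd hx), mul_zero, add_zero, pow_succ']


section Integral

variable [MeasurableSpace E] [BorelSpace E] (μ : Measure E) [μ.IsAddHaarMeasure]

/-- Stokes for forms supported off the origin -/
theorem Supp.stokes {s : E → Lam E} (hs : Supp s) {k : ℕ} (v : Fin k → E) :
    ∫ x, evalForm (Fm.extd s x) v ∂μ = 0 :=
  integral_evalForm_extd μ v (hs.smooth.of_le (by norm_cast)) hs.comp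

theorem fn_eq (f : E → ℝ) : fn f = fun y => f y • (1 : Lam E) := by
  funext y; rw [fn, Algebra.algebraMap_eq_smul_one]

theorem Cut.sub {u u' : E → ℝ} (hu : Cut u) (hu' : Cut u') : Supp (fn (fun x => u x - u' x)) := by
  refine ⟨?_, ?_, ?_⟩
  · rw [fn_eq]
    exact ContDiff.smul (hu.smooth.sub hu'.smooth) (contDiff_const (𝕜 := ℝ) (c := (1 : Lam E)))
  · filter_upwards [hu.near, hu'.near] with x h1 h2
    rw [fn, h1, h2, sub_zero, map_zero]
  · obtain ⟨K, hK, h1⟩ := hu.far
    obtain ⟨K', hK', h1'⟩ := hu'.far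
    refine HasCompactSupport.intro (hK.union hK') fun x hx => ?_
    rw [fn, h1 x fun h => hx (Or.inl h), h1' x fun h => hx (Or.inr h), sub_self, map_zero]

/-- the integral of `du ∧ b (db)^m` does not depend on the cut-off function -/
theorem cut_indep (hX : ∀ x, x ≠ 0 → X x ≠ 0) (hb : Conn X b) {u u' : E → ℝ} (hu : Cut u)
    (hu' : Cut u') {k m : ℕ} (hk : finrank ℝ E ≤ k) (v : Fin k → E) :
    ∫ x, evalForm (dfn u x * om b m x) v ∂μ = ∫ x, evalForm (dfn u' x * om b m x) v ∂μ := by
  have hS := (hu.supp.mul fun x hx => hb.smooth_om m hx)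
  have hS' := (hu'.supp.mul fun x hx => hb.smooth_om m hx)
  rw [← sub_eq_zero, ← integral_sub (hS.integrable μ v) (hS'.integrable μ v)]
  -- the primitive
  have hd := hu.sub hu'
  have hη := hd.mul fun x hx => hb.smooth_om m hx
  rw [← hη.stokes μ v]
  refine integral_congr_ae (Eventually.of_forall fun x => ?_)
  change evalL v (dfn u x * om b m x) - evalL v (dfn u' x * om b m x) = evalL v _
  rw [← map_sub, ← sub_mul]
  by_cases hx : x = 0
  · subst hx
    have h1 := hη.extd.near.self_of_nhds
    rw [h1, hu.supp.near.self_of_nhds, hu'.supp.near.self_of_nhds, sub_self, zero_mul]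
  · have h1 : DifferentiableAt ℝ (fn (fun x => u x - u' x)) x :=
      (hd.smooth.differentiable (by simp)) x
    have h2 : DifferentiableAt ℝ (om b m) x := (hb.smooth_om m hx).differentiableAt (by simp)
    rw [extd_mul h1 h2, hb.extd_om m hx]
    have hux := (hu.smooth.differentiable (by simp)) x
    have hux' := (hu'.smooth.differentiable (by simp)) x
    have h3 : evalL v (inv (fn (fun x => u x - u' x) x) * extd b x ^ (m + 1)) = 0 := by
      refine evalForm_eq_zero hk (hX x hx) ?_ v
      rw [fn, AlgHom.commutes, iprod_mul, iprod_algebraMap, zero_mul, zero_add,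
        iprod_pow (hb.zero x hx), mul_zero]
    have h4 : dfn u x - dfn u' x = extd (fn (fun x => u x - u' x)) x := by
      rw [extd_fn (f := fun x => u x - u' x) (hux.fun_sub hux'), fderiv_fun_sub hux hux', map_sub]
      rfl
    rw [map_add, h3, add_zero, h4]

/-- invariance of the function `u` under the flow of `X` -/
def Inva (X : E → E) (u : E → ℝ) : Prop := ∀ x, x ≠ 0 → iprod (X x) (dfn u x) = 0

/-- the integral of `du ∧ b (db)^m` does not depend on the connection form -/
theorem conn_indep (hX : ∀ x, x ≠ 0 → X x ≠ 0) (hb : Conn X b) (hb' : Conn X b') {u : E → ℝ}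
    (hu : Cut u) (hi : Inva X u) {k m : ℕ} (hk : finrank ℝ E ≤ k) (v : Fin k → E) :
    ∫ x, evalForm (dfn u x * om b m x) v ∂μ = ∫ x, evalForm (dfn u x * om b' m x) v ∂μ := by
  have hS := (hu.supp.mul fun x hx => hb.smooth_om m hx)
  have hS' := (hu.supp.mul fun x hx => hb'.smooth_om m hx)
  rw [← sub_eq_zero, ← integral_sub (hS.integrable μ v) (hS'.integrable μ v)]
  -- the polynomial `Q = ∑ (db)^i (db')^(m-1-i)`
  let Q : E → Lam E := fun x => ∑ i ∈ Finset.range m, extd b x ^ i * extd b' x ^ (m - 1 - i)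
  have hQs : ∀ x, x ≠ 0 → ContDiffAt ℝ ∞ Q x := fun x hx =>
    ContDiffAt.sum fun i _ => ((hb.smooth_extd hx).pow _).mul ((hb'.smooth_extd hx).pow _)
  have hQd : ∀ x, x ≠ 0 → extd Q x = 0 := by
    intro x hx
    have h1 : ∀ i ∈ Finset.range m, DifferentiableAt ℝ
        (fun x => extd b x ^ i * extd b' x ^ (m - 1 - i)) x := fun i _ =>
      ((hb.diff_extd hx).fun_pow i).fun_mul ((hb'.diff_extd hx).fun_pow _)
    rw [extd_sum _ h1]
    refine Finset.sum_eq_zero fun i _ => ?_
    rw [extd_mul ((hb.diff_extd hx).fun_pow i) ((hb'.diff_extd hx).fun_pow _),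
      extd_pow (hb.diff_extd hx) (hb.extd_extd hx), extd_pow (hb'.diff_extd hx) (hb'.extd_extd hx),
      zero_mul, mul_zero, add_zero]
  have hQi : ∀ x, x ≠ 0 → iprod (X x) (Q x) = 0 := by
    intro x hx
    rw [map_sum]
    exact Finset.sum_eq_zero fun i _ =>
      iprod_mul_zero (iprod_pow (hb.zero x hx) _) (iprod_pow (hb'.zero x hx) _)
  -- the primitive
  have hη := hu.supp.mul (w := fun x => b' x * ((b x - b' x) * Q x)) fun x hx =>
    (hb'.smooth x hx).mul (((hb.smooth x hx).sub (hb'.smooth x hx)).mul (hQs x hx))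
  have hkey : ∀ x, evalL v (dfn u x * om b m x) - evalL v (dfn u x * om b' m x)
      = evalL v (Fm.extd (fun x => dfn u x * (b' x * ((b x - b' x) * Q x))) x) := by
    intro x
    by_cases hx : x = 0
    · subst hx
      have h1 := hη.extd.near.self_of_nhds
      rw [h1, hu.supp.near.self_of_nhds, zero_mul, zero_mul, map_zero, sub_self]
    · have d0 : DifferentiableAt ℝ (dfn u) x := (contDiff_dfn hu.smooth).differentiable (by simp) x
      have dQ : DifferentiableAt ℝ Q x := (hQs x hx).differentiableAt (by simp)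
      have da : DifferentiableAt ℝ (fun x => b x - b' x) x := (hb.diff hx).sub (hb'.diff hx)
      have daQ : DifferentiableAt ℝ (fun x => (b x - b' x) * Q x) x := da.fun_mul dQ
      have e1 : extd (fun x => (b x - b' x) * Q x) x = (extd b x - extd b' x) * Q x := by
        rw [extd_mul da dQ, hQd x hx, mul_zero, add_zero, extd_sub (hb.diff hx) (hb'.diff hx)]
      have e2 : extd (fun x => b' x * ((b x - b' x) * Q x)) x
          = extd b' x * ((b x - b' x) * Q x) - b' x * ((extd b x - extd b' x) * Q x) := by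
        rw [extd_mul (hb'.diff hx) daQ, e1, hb'.odd x hx, neg_mul, ← sub_eq_add_neg]
      rw [extd_mul d0 ((hb'.diff hx).fun_mul daQ), extd_dfn hu.smooth, zero_mul, zero_add, e2,
        inv_dfn, neg_mul, mul_sub, neg_sub, map_sub]
      have i1 : iprod (X x) (dfn u x) = 0 := hi x hx
      have i2 : iprod (X x) (b x - b' x) = 0 := by
        rw [map_sub, hb.one x hx, hb'.one x hx, sub_self]
      have z1 : evalL v (dfn u x * (extd b' x * ((b x - b' x) * Q x))) = 0 :=
        evalForm_eq_zero hk (hX x hx) (iprod_mul_zero i1 (iprod_mul_zero (hb'.zero x hx)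
          (iprod_mul_zero i2 (hQi x hx)))) v
      have z2 : evalL v (dfn u x * ((b x - b' x) * extd b x ^ m)) = 0 :=
        evalForm_eq_zero hk (hX x hx) (iprod_mul_zero i1 (iprod_mul_zero i2
          (iprod_pow (hb.zero x hx) _))) v
      have hc : Commute (extd b x) (extd b' x) := by
        rw [commute_iff_eq]
        exact mul_comm_of_even (hb.inv_extd hx) _
      have h5 : (extd b x - extd b' x) * Q x = extd b x ^ m - extd b' x ^ m := hc.mul_geom_sum₂ m
      rw [z1, sub_zero, h5, ← map_sub, ← sub_eq_zero, ← map_sub]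
      rw [← z2]
      congr 1
      rw [om, om]
      noncomm_ring
  rw [← hη.stokes μ v]
  exact integral_congr_ae (Eventually.of_forall hkey)

end Integral

end Vale.Agent.P231.EN
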