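import Vale.Agent.P231.Fm.Cont
import Vale.Agent.P205.TI.Deg

/-!
# P231, block EN: degree of a proper smooth map of a finite dimensional space

`exists_degree`: `∫ g^* w = d * ∫ w` with an integer `d`, for compactly supported top degree forms.
-/

set_option linter.unusedSectionVars false

open MeasureTheory Set Module Filter Topology Bornology
open scoped ContDiff

namespace Vale.Agent.P231.EN

open Vale.Agent.P205.TI.Deg

variable {N : ℕ}

/-- the degree functional -/
noncomputable def Tf (g : (Fin N → ℝ) → (Fin N → ℝ)) (f : (Fin N → ℝ) → ℝ) : ℝ :=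
  ∫ x, f (g x) * detC N (rows g x)

/-- properness -/
def Pr {W V : Type*} [Norm W] [Norm V] (g : W → V) : Prop :=
  ∀ R : ℝ, ∃ R' : ℝ, ∀ x, ‖g x‖ ≤ R → ‖x‖ ≤ R'

theorem rows_add_const (g : (Fin N → ℝ) → (Fin N → ℝ)) (u : Fin N → ℝ) (x : Fin N → ℝ) :
    rows (fun y => g y + u) x = rows g x := by
  funext j
  simp only [rows]
  rw [fderiv_add_const]

/-- translation invariance -/
theorem Tf_translate {g : (Fin N → ℝ) → (Fin N → ℝ)} (hg : ContDiff ℝ ∞ g) (hp : Pr g)
    {f : (Fin N → ℝ) → ℝ} (hf : ContDiff ℝ 1 f) (hc : HasCompactSupport f) (u : Fin N → ℝ) :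
    Tf g (fun y => f (y + u)) = Tf g f := by
  obtain ⟨R, hR⟩ : ∃ R, ∀ y, f y ≠ 0 → ‖y‖ ≤ R := by
    obtain ⟨R, hR⟩ := hc.isCompact.isBounded.exists_norm_le
    exact ⟨R, fun y hy => hR y (subset_tsupport _ hy)⟩
  obtain ⟨R', hR'⟩ := hp (R + ‖u‖)
  let χ : ContDiffBump (0 : Fin N → ℝ) := ⟨max R' 0 + 1, max R' 0 + 2,
    by positivity, by linarith⟩
  have hχ1 : ∀ x, ‖x‖ ≤ R' → χ =ᶠ[𝓝 x] fun _ => (1 : ℝ) := by
    intro x hx
    refine χ.eventuallyEq_one_of_mem_ball ?_
    rw [mem_ball_zero_iff]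
    change ‖x‖ < max R' 0 + 1
    linarith [le_max_left R' 0]
  have key : ∀ t ∈ Icc (0:ℝ) 1, ∀ x, f (g x + t • u) ≠ 0 → ‖x‖ ≤ R' := by
    intro t ht x hx
    refine hR' x ?_
    have h1 := hR _ hx
    have h2 : ‖g x‖ ≤ ‖g x + t • u‖ + ‖t • u‖ := by
      have := norm_sub_le (g x + t • u) (t • u)
      rwa [add_sub_cancel_right] at this
    have h3 : ‖t • u‖ ≤ ‖u‖ := by
      rw [norm_smul, Real.norm_eq_abs, abs_of_nonneg ht.1]
      exact mul_le_of_le_one_left (norm_nonneg _) ht.2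
    linarith
  have h := integral_const_in_time (φ := f) (χ := χ) (f := g) (u := fun _ => u) hf
    (hg.of_le two_le_infty) contDiff_const
    (χ.contDiff (n := 1)) χ.hasCompactSupport (fun t ht x hx => by
      rw [(hχ1 x (key t ht x hx)).fderiv_eq]
      simp)
  have e : ∀ (v : Fin N → ℝ), (∀ x, f (g x + v) ≠ 0 → ‖x‖ ≤ R') → ∀ x,
      χ x * (f (g x + v) * detC N (rows g x)) = f (g x + v) * detC N (rows g x) := by
    intro v hv x
    by_cases h0 : f (g x + v) = 0
    · rw [h0]; simp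
    · rw [(hχ1 x (hv x h0)).eq_of_nhds, one_mul]
  simp only [rows_add_const] at h
  have e1 := e u (fun x hx => key 1 (by simp) x (by simpa using hx))
  have e0 := e 0 (fun x hx => key 0 (by simp) x (by simpa using hx))
  simp only [add_zero] at e0
  simp only [e1, e0] at h
  exact h

theorem continuous_rows {g : (Fin N → ℝ) → (Fin N → ℝ)} (hg : ContDiff ℝ ∞ g) :
    Continuous fun x => detC N (rows g x) :=
  continuous_detC.comp (contDiff_rows (k := 1) (hg.of_le two_le_infty)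
    (by norm_num)).continuous

theorem Tf_mul_integral {g : (Fin N → ℝ) → (Fin N → ℝ)} (hg : ContDiff ℝ ∞ g) (hp : Pr g)
    {f k : (Fin N → ℝ) → ℝ} (hf : ContDiff ℝ 1 f) (hc : HasCompactSupport f)
    (hk : ContDiff ℝ 1 k) (hkc : HasCompactSupport k) :
    Tf g k * ∫ y, f y = Tf g f * ∫ y, k y := by
  obtain ⟨R, hR⟩ : ∃ R, ∀ y, f y ≠ 0 → ‖y‖ ≤ R := by
    obtain ⟨R, hR⟩ := hc.isCompact.isBounded.exists_norm_le
    exact ⟨R, fun y hy => hR y (subset_tsupport _ hy)⟩
  obtain ⟨S, hS⟩ : ∃ S, ∀ y, k y ≠ 0 → ‖y‖ ≤ S := by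
    obtain ⟨R, hR⟩ := hkc.isCompact.isBounded.exists_norm_le
    exact ⟨R, fun y hy => hR y (subset_tsupport _ hy)⟩
  obtain ⟨R', hR'⟩ := hp (R + S)
  have hD := continuous_rows hg
  have cf := hf.continuous
  have ck := hk.continuous
  have cg := hg.continuous
  -- first: ∫ f y * T (k (· - y))
  have h1 : Tf g k * ∫ y, f y = ∫ y, ∫ x, f y * (k (g x - y) * detC N (rows g x)) := by
    rw [mul_comm, ← integral_mul_const]
    refine integral_congr_ae (Filter.Eventually.of_forall fun y => ?_)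
    simp only
    rw [integral_const_mul]
    congr 1
    have := Tf_translate hg hp hk hkc (-y)
    rw [← this]
    simp only [Tf, sub_eq_add_neg]
  have h2 : Tf g f * ∫ y, k y = ∫ y, ∫ x, k y * (f (g x - y) * detC N (rows g x)) := by
    rw [mul_comm, ← integral_mul_const]
    refine integral_congr_ae (Filter.Eventually.of_forall fun y => ?_)
    simp only
    rw [integral_const_mul]
    congr 1
    have := Tf_translate hg hp hf hc (-y)
    rw [← this]
    simp only [Tf, sub_eq_add_neg]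
  have aux : ∀ {a b : (Fin N → ℝ) → ℝ} {A B : ℝ}, Continuous a → Continuous b →
      (∀ y, a y ≠ 0 → ‖y‖ ≤ A) → (∀ y, b y ≠ 0 → ‖y‖ ≤ B) → A + B = R + S →
      Integrable (fun q : (Fin N → ℝ) × (Fin N → ℝ) =>
        a q.1 * (b (g q.2 - q.1) * detC N (rows g q.2))) := by
    intro a b A B ca cb hA hB hAB
    refine Continuous.integrable_of_hasCompactSupport ?_ ?_
    · exact (ca.comp continuous_fst).mul ((cb.comp ((cg.comp continuous_snd).sub
        continuous_fst)).mul (hD.comp continuous_snd))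
    · refine HasCompactSupport.intro ((isCompact_closedBall (0 : Fin N → ℝ) A).prod
        (isCompact_closedBall (0 : Fin N → ℝ) R')) ?_
      rintro ⟨y, x⟩ hq
      by_contra h0
      have ha : a y ≠ 0 := fun h => h0 (by simp [h])
      have hb : b (g x - y) ≠ 0 := fun h => h0 (by simp [h])
      refine hq ⟨by simpa using hA y ha, ?_⟩
      have h3 := hA y ha
      have h4 := hB _ hb
      have h5 : ‖g x‖ ≤ R + S := by
        have : ‖g x‖ ≤ ‖g x - y‖ + ‖y‖ := by
          have := norm_add_le (g x - y) y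
          rwa [sub_add_cancel] at this
        linarith
      simpa using hR' x h5
  have i1 := aux cf ck hR hS rfl
  have i2 := aux ck cf hS hR (add_comm _ _)
  rw [h1, h2, integral_integral_swap (f := fun y x => f y * (k (g x - y) * detC N (rows g x))) i1,
    integral_integral_swap (f := fun y x => k y * (f (g x - y) * detC N (rows g x))) i2]
  refine integral_congr_ae (Filter.Eventually.of_forall fun x => ?_)
  simp only
  have h3 := integral_sub_left_eq_self (μ := (volume : Measure (Fin N → ℝ)))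
    (fun y => f y * (k (g x - y) * detC N (rows g x))) (g x)
  rw [← h3]
  refine integral_congr_ae (Filter.Eventually.of_forall fun y => ?_)
  simp only [sub_sub_cancel]
  ring

/-- the degree of a proper smooth map is an integer -/
theorem exists_deg_proper {g : (Fin N → ℝ) → (Fin N → ℝ)} (hg : ContDiff ℝ ∞ g) (hp : Pr g) :
    ∃ d : ℤ, ∀ f : (Fin N → ℝ) → ℝ, ContDiff ℝ 1 f → HasCompactSupport f →
      Tf g f = d * ∫ y, f y := by
  have hgd : Differentiable ℝ g := hg.differentiable (by simp)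
  -- a regular value
  obtain ⟨y0, hy0⟩ : ∃ y0 : Fin N → ℝ, ∀ x, g x = y0 → (fderiv ℝ g x).det ≠ 0 := by
    have h := addHaar_image_eq_zero_of_det_fderivWithin_eq_zero (μ := volume)
      (s := {x | (fderiv ℝ g x).det = 0}) (f := g) (f' := fun x => fderiv ℝ g x)
      (fun x _ => (hgd x).hasFDerivAt.hasFDerivWithinAt) (fun x hx => hx)
    by_contra hcon
    push Not at hcon
    have h2 : g '' {x | (fderiv ℝ g x).det = 0} = univ := by
      refine eq_univ_of_forall fun y => ?_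
      obtain ⟨x, hx, hx'⟩ := hcon y
      exact ⟨x, hx', hx⟩
    rw [h2] at h
    exact (NeZero.ne (volume : Measure (Fin N → ℝ))) (Measure.measure_univ_eq_zero.1 h)
  obtain ⟨R', hR'⟩ := hp (‖y0‖ + 1)
  set W : Set (Fin N → ℝ) := Metric.ball 0 (R' + 1) with hW
  set g0 : (Fin N → ℝ) → (Fin N → ℝ) := fun x => g x + -y0 with hg0
  have hg0s : ContDiff ℝ ∞ g0 := hg.add contDiff_const
  have hnorm : ∀ x, ‖g0 x‖ ≤ 1 → ‖x‖ ≤ R' := by
    intro x hx
    refine hR' x ?_
    have : ‖g x‖ ≤ ‖g0 x‖ + ‖y0‖ := by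
      have := norm_add_le (g0 x) y0
      simpa [hg0] using this
    linarith
  have hfr : ∀ x ∈ frontier W, g0 x ≠ 0 := by
    intro x hx h0
    have h1 := hnorm x (by rw [h0]; simp)
    have h2 : x ∉ W := by
      have := (Metric.isOpen_ball (x := (0 : Fin N → ℝ)) (ε := R' + 1)).frontier_eq
      rw [hW, this] at hx
      exact hx.2
    exact h2 (by rw [hW, mem_ball_zero_iff]; linarith)
  obtain ⟨Z, -, Λ, hΛ, hJ⟩ := regular_formula hg0s Metric.isOpen_ball Metric.isBounded_ball hfr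
    (fun x _ hx => by
      have h1 : g x = y0 := by
        have : g x + -y0 = 0 := hx
        rwa [← sub_eq_add_neg, sub_eq_zero] at this
      have h2 : fderiv ℝ g0 x = fderiv ℝ g x := fderiv_add_const _
      rw [h2]
      exact hy0 x h1)
  refine ⟨∑ z ∈ Z, sg (fderiv ℝ g0 z).det, fun f hf hc => ?_⟩
  -- test function
  set c : ℝ := max Λ 1 with hcdef
  have hc1 : 1 ≤ c := le_max_right _ _
  have hc0 : 0 < c := by linarith
  set k : (Fin N → ℝ) → ℝ := fun y => phi N (c • (y + -y0)) with hkdef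
  have hk : ContDiff ℝ 1 k := by
    have h1 : ContDiff ℝ 1 (fun y : Fin N → ℝ => c • (y + -y0)) := by fun_prop
    exact (phi_contDiff.of_le (by exact_mod_cast le_top)).comp h1
  have hkz : ∀ y, k y ≠ 0 → ‖y + -y0‖ < 1 := by
    intro y hy
    have h1 := phi_ne_zero hy
    rw [norm_smul, Real.norm_eq_abs, abs_of_pos hc0] at h1
    nlinarith [norm_nonneg (y + -y0)]
  have hkc : HasCompactSupport k := by
    refine HasCompactSupport.intro (isCompact_closedBall y0 1) fun y hy => ?_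
    by_contra h0
    exact hy (by rw [mem_closedBall_iff_norm, sub_eq_add_neg]; exact (hkz y h0).le)
  have hki : ∫ y, k y = (c ^ N)⁻¹ := by
    have h1 : ∫ y, k y = ∫ y, phi N (c • y) := by
      rw [hkdef]
      exact integral_add_right_eq_self (μ := (volume : Measure (Fin N → ℝ)))
        (fun y => phi N (c • y)) (-y0)
    rw [h1, Measure.integral_comp_smul, phi_integral]
    simp [abs_of_pos hc0]
  have hTk : c ^ N * Tf g k = ∑ z ∈ Z, (sg (fderiv ℝ g0 z).det : ℝ) := by
    rw [← hJ c (le_max_left _ _)]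
    unfold Tf J
    rw [← integral_const_mul, ← integral_indicator measurableSet_ball]
    refine integral_congr_ae (Filter.Eventually.of_forall fun x => ?_)
    simp only
    have h1 : rows (fun x => c • g0 x) x = c • rows g x := by
      rw [rows_smul (hg0s.differentiable (by simp)), hg0, rows_add_const]
    by_cases hx : x ∈ W
    · rw [indicator_of_mem hx, h1, detC_smul, hkdef]
      ring
    · rw [indicator_of_notMem hx]
      have h2 : k (g x) = 0 := by
        by_contra h0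
        have h3 := hkz _ h0
        have h4 := hnorm x h3.le
        exact hx (by rw [hW, mem_ball_zero_iff]; linarith)
      rw [h2]
      ring
  have h5 := Tf_mul_integral hg hp hf hc hk hkc
  rw [hki] at h5
  have hcN : c ^ N ≠ 0 := (pow_pos hc0 N).ne'
  push_cast
  rw [← hTk, mul_assoc, h5]
  field_simp

section Hom

variable {f : (Fin N → ℝ) → (Fin N → ℝ)}

theorem hom_zero (hhom : ∀ t : ℝ, 0 < t → ∀ x, f (t • x) = t • f x) : f 0 = 0 := by
  have h := hhom 2 two_pos 0
  rw [smul_zero, two_smul] at h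
  exact left_eq_add.1 h

theorem hom_norm (hhom : ∀ t : ℝ, 0 < t → ∀ x, f (t • x) = t • f x) {x : Fin N → ℝ} (hx : x ≠ 0) :
    ‖f x‖ = ‖x‖ * ‖f (‖x‖⁻¹ • x)‖ := by
  have h0 : 0 < ‖x‖ := norm_pos_iff.2 hx
  rw [hhom _ (inv_pos.2 h0), norm_smul, norm_inv, norm_norm, ← mul_assoc,
    mul_inv_cancel₀ h0.ne', one_mul]

theorem norm_unit {x : Fin N → ℝ} (hx : x ≠ 0) : ‖‖x‖⁻¹ • x‖ = 1 := by
  have h0 : 0 < ‖x‖ := norm_pos_iff.2 hx
  rw [norm_smul, norm_inv, norm_norm, inv_mul_cancel₀ h0.ne']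

theorem contOn_sphere (hf : ∀ x, x ≠ 0 → ContDiffAt ℝ ∞ f x) :
    ContinuousOn f (Metric.sphere 0 1) := by
  intro x hx
  have hx0 : x ≠ 0 := by
    rintro rfl
    simp at hx
  exact (hf x hx0).continuousAt.continuousWithinAt

theorem exists_lower (hf : ∀ x, x ≠ 0 → ContDiffAt ℝ ∞ f x)
    (hhom : ∀ t : ℝ, 0 < t → ∀ x, f (t • x) = t • f x) (hne : ∀ x, x ≠ 0 → f x ≠ 0) :
    ∃ m > 0, ∀ x, m * ‖x‖ ≤ ‖f x‖ := by
  obtain ⟨m, hm, hmx⟩ := exists_pos_lower_bound (isCompact_sphere (0 : Fin N → ℝ) 1)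
    (contOn_sphere hf) (fun x hx => hne x (by rintro rfl; simp at hx))
  refine ⟨m, hm, fun x => ?_⟩
  by_cases hx : x = 0
  · subst hx
    simp
  · rw [hom_norm hhom hx, mul_comm]
    exact mul_le_mul_of_nonneg_left (hmx _ (by simpa using norm_unit hx)) (norm_nonneg _)

theorem exists_upper (hf : ∀ x, x ≠ 0 → ContDiffAt ℝ ∞ f x)
    (hhom : ∀ t : ℝ, 0 < t → ∀ x, f (t • x) = t • f x) :
    ∃ M > 0, ∀ x, ‖f x‖ ≤ M * ‖x‖ := by
  obtain ⟨M, hM⟩ := (isCompact_sphere (0 : Fin N → ℝ) 1).exists_bound_of_continuousOn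
    (contOn_sphere hf)
  refine ⟨max M 1, by positivity, fun x => ?_⟩
  by_cases hx : x = 0
  · subst hx
    rw [hom_zero hhom]
    simp
  · rw [hom_norm hhom hx, mul_comm]
    refine mul_le_mul_of_nonneg_right ?_ (norm_nonneg _)
    exact (hM _ (by simpa using norm_unit hx)).trans (le_max_left _ _)

theorem hom_fderiv (hf : ∀ x, x ≠ 0 → ContDiffAt ℝ ∞ f x)
    (hhom : ∀ t : ℝ, 0 < t → ∀ x, f (t • x) = t • f x) {t : ℝ} (ht : 0 < t) (x : Fin N → ℝ) :
    fderiv ℝ f (t • x) = fderiv ℝ f x := by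
  by_cases hx : x = 0
  · rw [hx, smul_zero]
  have hd : ∀ y, y ≠ 0 → HasFDerivAt f (fderiv ℝ f y) y := fun y hy =>
    ((hf y hy).differentiableAt (by simp)).hasFDerivAt
  have htx : t • x ≠ 0 := smul_ne_zero ht.ne' hx
  have h1 : HasFDerivAt (fun y => f (t • y))
      ((fderiv ℝ f (t • x)).comp (t • ContinuousLinearMap.id ℝ (Fin N → ℝ))) x :=
    (hd _ htx).comp x ((hasFDerivAt_id x).const_smul t)
  have h2 : HasFDerivAt (fun y => f (t • y)) (t • fderiv ℝ f x) x := by
    have := (hd x hx).const_smul t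
    refine this.congr_of_eventuallyEq (Filter.Eventually.of_forall fun y => ?_)
    simp only [hhom t ht, Pi.smul_apply]
  have h3 := h1.unique h2
  ext1 v
  have h4 := DFunLike.congr_fun h3 v
  simp only [ContinuousLinearMap.comp_apply, smul_apply,
    ContinuousLinearMap.id_apply, map_smul] at h4
  exact smul_right_injective _ ht.ne' h4

/-- **the degree of a homogeneous map** smooth off the origin is an integer -/
theorem exists_deg (f : (Fin N → ℝ) → (Fin N → ℝ)) (hf : ∀ x, x ≠ 0 → ContDiffAt ℝ ∞ f x)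
    (hhom : ∀ t : ℝ, 0 < t → ∀ x, f (t • x) = t • f x) (hne : ∀ x, x ≠ 0 → f x ≠ 0) :
    ∃ d : ℤ, ∀ φ : (Fin N → ℝ) → ℝ, ContDiff ℝ 1 φ → HasCompactSupport φ → 0 ∉ tsupport φ →
      ∫ x, φ (f x) * (fderiv ℝ f x).det = d * ∫ x, φ x := by
  obtain ⟨m, hm, hmf⟩ := exists_lower hf hhom hne
  obtain ⟨M, hM, hMf⟩ := exists_upper hf hhom
  let b : ContDiffBump (0 : Fin N → ℝ) := ⟨1 / 8, 1 / 4, by norm_num, by norm_num⟩
  set g : (Fin N → ℝ) → (Fin N → ℝ) := fun x => (1 - b x) • f x with hg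
  have hb1 : ∀ x, 1 / 4 < ‖x‖ → g =ᶠ[𝓝 x] f := by
    intro x hx
    have h1 : ∀ᶠ y in 𝓝 x, 1 / 4 < ‖y‖ := continuous_norm.continuousAt.eventually_const_lt hx
    filter_upwards [h1] with y hy
    have h2 : b y = 0 := b.zero_of_le_dist (by
      rw [dist_zero_right]
      exact hy.le)
    simp only [hg, h2, sub_zero, one_smul]
  have hb0 : g =ᶠ[𝓝 0] fun _ => 0 := by
    filter_upwards [b.eventuallyEq_one] with y hy
    have h2 : b y = 1 := hy
    simp only [hg, h2, sub_self, zero_smul]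
  have hgs : ContDiff ℝ ∞ g := by
    rw [contDiff_iff_contDiffAt]
    intro x
    by_cases hx : x = 0
    · subst hx
      exact contDiffAt_const.congr_of_eventuallyEq hb0
    · exact (contDiffAt_const.sub b.contDiff.contDiffAt).smul (hf x hx)
  have hgn : ∀ x, ‖g x‖ ≤ ‖f x‖ := by
    intro x
    have h1 : ‖(1 - b x)‖ ≤ 1 := by
      rw [Real.norm_eq_abs, abs_of_nonneg (by linarith [b.le_one (x := x)])]
      linarith [b.nonneg (x := x)]
    simp only [hg, norm_smul]
    exact mul_le_of_le_one_left (norm_nonneg _) h1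
  have hgp : Pr g := by
    intro R
    refine ⟨max (1 / 4) (R / m), fun x hx => ?_⟩
    by_cases h1 : 1 / 4 < ‖x‖
    · rw [(hb1 x h1).eq_of_nhds] at hx
      refine le_max_of_le_right ?_
      rw [le_div_iff₀ hm]
      linarith [hmf x, mul_comm m ‖x‖]
    · exact le_max_of_le_left (not_lt.1 h1)
  obtain ⟨d, hd⟩ := exists_deg_proper hgs hgp
  -- functions supported away from a ball
  have key : ∀ φ : (Fin N → ℝ) → ℝ, ContDiff ℝ 1 φ → HasCompactSupport φ →
      (∀ y, ‖y‖ ≤ M / 4 → φ y = 0) → ∫ x, φ (f x) * (fderiv ℝ f x).det = d * ∫ x, φ x := by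
    intro φ h1 h2 h3
    rw [← hd φ h1 h2]
    unfold Tf
    refine integral_congr_ae (Filter.Eventually.of_forall fun x => ?_)
    simp only
    by_cases h4 : 1 / 4 < ‖x‖
    · rw [← det_fderiv_eq, (hb1 x h4).fderiv_eq, (hb1 x h4).eq_of_nhds]
    · have h5 : ‖f x‖ ≤ M / 4 := by
        have := hMf x
        have h6 : M * ‖x‖ ≤ M * (1 / 4) := mul_le_mul_of_nonneg_left (not_lt.1 h4) hM.le
        linarith
      rw [h3 _ h5, h3 _ ((hgn x).trans h5), zero_mul, zero_mul]
  refine ⟨d, fun φ h1 h2 h3 => ?_⟩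
  obtain ⟨ε, hε, hε'⟩ : ∃ ε > 0, ∀ y, ‖y‖ < ε → φ y = 0 := by
    have h4 : (tsupport φ)ᶜ ∈ 𝓝 (0 : Fin N → ℝ) :=
      (isClosed_tsupport φ).isOpen_compl.mem_nhds h3
    obtain ⟨ε, hε, hs⟩ := Metric.mem_nhds_iff.1 h4
    exact ⟨ε, hε, fun y hy => image_eq_zero_of_notMem_tsupport (hs (by simpa using hy))⟩
  set s : ℝ := ε / (M / 2) with hs
  have hs0 : 0 < s := by positivity
  set k : (Fin N → ℝ) → ℝ := fun y => φ (s • y) with hk
  have hk1 : ContDiff ℝ 1 k := h1.comp (by fun_prop)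
  have hk2 : HasCompactSupport k := h2.comp_smul hs0.ne'
  have hk3 : ∀ y, ‖y‖ ≤ M / 4 → k y = 0 := by
    intro y hy
    refine hε' _ ?_
    rw [norm_smul, Real.norm_eq_abs, abs_of_pos hs0, hs]
    calc ε / (M / 2) * ‖y‖ ≤ ε / (M / 2) * (M / 4) := by gcongr
      _ = ε / 2 := by field_simp; ring
      _ < ε := by linarith
  have h5 := key k hk1 hk2 hk3
  have h6 : ∫ x, k x = |(s ^ N)⁻¹| * ∫ x, φ x := by
    have := Measure.integral_comp_smul (volume : Measure (Fin N → ℝ)) φ s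
    simpa using this
  have h7 : ∫ x, k (f x) * (fderiv ℝ f x).det = |(s ^ N)⁻¹| * ∫ x, φ (f x) * (fderiv ℝ f x).det := by
    have := Measure.integral_comp_smul (volume : Measure (Fin N → ℝ))
      (fun x => φ (f x) * (fderiv ℝ f x).det) s
    rw [hk]
    simp only [hhom s hs0, hom_fderiv hf hhom hs0] at this
    simpa using this
  rw [h6, h7] at h5
  have h8 : |(s ^ N)⁻¹| ≠ 0 := by
    rw [abs_of_pos (by positivity)]
    positivity
  have h9 : |(s ^ N)⁻¹| * ∫ x, φ (f x) * (fderiv ℝ f x).det =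
      |(s ^ N)⁻¹| * (d * ∫ x, φ x) := by rw [h5]; ring
  exact mul_left_cancel₀ h8 h9

end Hom

end Vale.Agent.P231.EN
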