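import Vale.Agent.P231.EN.Pb
import Vale.Agent.P231.EN.Deg

/-!
# P231, block EN: the Euler number bound
-/

set_option linter.unusedSectionVars false

open Module Set Filter MeasureTheory
open scoped ContDiff Topology

noncomputable section

namespace Vale.Agent.P231.EN

open Vale.Agent.P231.Fm

section Coord

variable {E : Type*} [NormedAddCommGroup E] [InnerProductSpace ℝ E] [FiniteDimensional ℝ E]
  [MeasurableSpace E] [BorelSpace E] {N : ℕ}

/-- coordinates -/
def kap (o : OrthonormalBasis (Fin N) ℝ E) : (Fin N → ℝ) ≃L[ℝ] E :=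
  (EuclideanSpace.equiv (Fin N) ℝ).symm.trans o.repr.symm.toContinuousLinearEquiv

theorem kap_single (o : OrthonormalBasis (Fin N) ℝ E) (i : Fin N) :
    kap o (Pi.single i 1) = o i := by
  rw [← o.repr_symm_single i]
  rfl

theorem kap_mp (o : OrthonormalBasis (Fin N) ℝ E) :
    MeasurePreserving (kap o) volume volume :=
  (o.repr.symm.measurePreserving).comp (PiLp.volume_preserving_toLp (Fin N))

theorem kap_integral (o : OrthonormalBasis (Fin N) ℝ E) (g : E → ℝ) :
    ∫ y, g (kap o y) = ∫ x, g x :=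
  (kap_mp o).integral_comp (kap o).toHomeomorph.measurableEmbedding g

end Coord

/-- abbreviation: the exterior derivative commutes with powers of pullbacks -/
theorem pb_om {E F : Type*} [NormedAddCommGroup E] [NormedSpace ℝ E] [FiniteDimensional ℝ E]
    [NormedAddCommGroup F] [NormedSpace ℝ F] [FiniteDimensional ℝ F] {f : E → F} {b : F → Lam F}
    {x : E} (hf : ContDiffAt ℝ 2 f x) (hb : DifferentiableAt ℝ b (f x)) (m : ℕ) :
    om (pb f b) m x = pb f (om b m) x := by
  rw [om, extd_pb hf hb, pb, pb, pb, om, map_mul, map_pow]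

theorem pb_dfn {E F : Type*} [NormedAddCommGroup E] [NormedSpace ℝ E] [FiniteDimensional ℝ E]
    [NormedAddCommGroup F] [NormedSpace ℝ F] [FiniteDimensional ℝ F] {f : E → F} {u : F → ℝ}
    {x : E} (hf : DifferentiableAt ℝ f x) (hu : DifferentiableAt ℝ u (f x)) :
    dfn (fun x => u (f x)) x = pb f (dfn u) x := by
  rw [dfn, pb, dfn, pull_dx, fderiv_fun_comp x hu hf]

section Degree

variable {E : Type*} [NormedAddCommGroup E] [InnerProductSpace ℝ E] [FiniteDimensional ℝ E]
  [MeasurableSpace E] [BorelSpace E] {N n : ℕ} {J : E → E} {b : E → Lam E} {u : E → ℝ}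

/-- the degree formula for the pullback by an equivariant map -/
theorem exists_degree_eqv (o : OrthonormalBasis (Fin N) ℝ E)
    (L : (Fin N → ℝ) ≃L[ℝ] (Fin n → ℂ)) {G : (Fin n → ℂ) → E} (hG : Eqv J G)
    (hb : Conn J b) (hu : Cut u) (m : ℕ) :
    ∃ d : ℤ, ∫ y, evalForm (dfn (fun z => u (G z)) (L y) * om (pb G b) m (L y))
        (fun i => L (Pi.single i 1)) = d * ∫ x, evalForm (dfn u x * om b m x) o := by
  have hS : Supp (fun x => dfn u x * om b m x) := hu.supp.mul fun x hx => hb.smooth_om m hx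
  set Om : E → Lam E := fun x => dfn u x * om b m x with hOm
  let f : (Fin N → ℝ) → (Fin N → ℝ) := fun y => (kap o).symm (G (L y))
  have hL0 : ∀ y, y ≠ 0 → L y ≠ 0 := fun y hy h => hy (L.map_eq_zero_iff.1 h)
  have hf : ∀ y, y ≠ 0 → ContDiffAt ℝ ∞ f y := fun y hy =>
    (kap o).symm.contDiff.contDiffAt.comp y ((hG.contDiffAt (hL0 y hy)).comp y
      L.contDiff.contDiffAt)
  have hh : ∀ t : ℝ, 0 < t → ∀ y, f (t • y) = t • f y := by
    intro t ht y
    simp only [f]
    rw [map_smul, hG.hom t ht, map_smul]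
  have hn : ∀ y, y ≠ 0 → f y ≠ 0 := fun y hy h =>
    hG.ne _ (hL0 y hy) ((kap o).symm.map_eq_zero_iff.1 h)
  obtain ⟨d, hd⟩ := exists_deg f hf hh hn
  let φ : (Fin N → ℝ) → ℝ := fun y => evalForm (Om (kap o y)) o
  have hφs : ContDiff ℝ 1 φ :=
    (evalL o).contDiff.comp ((hS.smooth.of_le (by norm_cast)).comp (kap o).contDiff)
  have hφc : HasCompactSupport φ := by
    have h1 : HasCompactSupport (fun y => Om (kap o y)) :=
      hS.comp.comp_homeomorph (kap o).toHomeomorph
    exact h1.comp_left (g := evalL o) (map_zero _)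
  have hφ0 : (0 : Fin N → ℝ) ∉ tsupport φ := by
    rw [notMem_tsupport_iff_eventuallyEq]
    have h1 : Tendsto (kap o) (𝓝 0) (𝓝 0) := by
      have := (kap o).continuous.tendsto 0
      rwa [map_zero] at this
    filter_upwards [h1.eventually hS.near] with y hy
    change evalL o (Om (kap o y)) = 0
    rw [hy, map_zero]
  refine ⟨d, ?_⟩
  rw [← kap_integral o (fun x => evalForm (Om x) o)]
  change _ = (d : ℝ) * ∫ y, φ y
  rw [← hd φ hφs hφc hφ0]
  refine integral_congr_ae (Eventually.of_forall fun y => ?_)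
  change evalForm (dfn (fun z => u (G z)) (L y) * om (pb G b) m (L y)) (fun i => L (Pi.single i 1))
    = evalForm (Om (kap o (f y))) o * (fderiv ℝ f y).det
  have hkf : ∀ y, kap o (f y) = G (L y) := fun y => (kap o).apply_symm_apply _
  rw [hkf]
  by_cases hy : y = 0
  · subst hy
    have hc := hu.comp (fun x hx => hG.contDiffAt hx) hG.hom hG.ne
    rw [map_zero, hc.supp.near.self_of_nhds, zero_mul, hG.zero, hS.near.self_of_nhds]
    change evalL _ 0 = evalL _ 0 * _
    rw [map_zero, map_zero, zero_mul]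
  · have hz := hL0 y hy
    have hGz := hG.contDiffAt hz
    have hGd : DifferentiableAt ℝ G (L y) := hGz.differentiableAt (by simp)
    have hG0 := hG.ne _ hz
    have e1 : dfn (fun z => u (G z)) (L y) * om (pb G b) m (L y) = pb G Om (L y) := by
      rw [pb_dfn hGd (hu.smooth.differentiable (by simp) _),
        pb_om (hGz.of_le (by norm_cast)) (hb.diff hG0)]
      exact (map_mul _ _ _).symm
    have hfd : (kap o : (Fin N → ℝ) →L[ℝ] E) ∘L fderiv ℝ f y
        = (fderiv ℝ G (L y)) ∘L (L : (Fin N → ℝ) →L[ℝ] (Fin n → ℂ)) := by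
      have h1 : HasFDerivAt f (fderiv ℝ f y) y :=
        ((hf y hy).differentiableAt (by simp)).hasFDerivAt
      have h2 : HasFDerivAt (fun y => kap o (f y))
          ((kap o : (Fin N → ℝ) →L[ℝ] E) ∘L fderiv ℝ f y) y :=
        (kap o).hasFDerivAt.comp y h1
      have h3 : HasFDerivAt (fun y => G (L y))
          ((fderiv ℝ G (L y)) ∘L (L : (Fin N → ℝ) →L[ℝ] (Fin n → ℂ))) y :=
        hGd.hasFDerivAt.comp y L.hasFDerivAt
      have h4 : (fun y => kap o (f y)) = fun y => G (L y) := funext hkf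
      rw [h4] at h2
      exact h2.unique h3
    have e3 : evalForm (Om (G (L y))) o
        = evalForm (pull (kap o : (Fin N → ℝ) →L[ℝ] E) (Om (G (L y)))) (Pi.basisFun ℝ (Fin N)) := by
      rw [evalForm_pull]
      congr 1
    have e4 : (fderiv ℝ f y).det = LinearMap.det (fderiv ℝ f y : (Fin N → ℝ) →ₗ[ℝ] (Fin N → ℝ)) := rfl
    rw [e1, e3, e4, mul_comm, ← evalForm_pull_det, ← pull_comp_apply, hfd, pull_comp_apply,
      evalForm_pull]
    rw [pb]
    congr 1
    funext i
    rw [Pi.basisFun_apply]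
    rfl

/-- the Euler number bound, given the value for the standard connection form -/
theorem euler_bound_of {m : ℕ} (o : OrthonormalBasis (Fin (2 * (m + 1))) ℝ E)
    (hstd : ∃ (L : (Fin (2 * (m + 1)) → ℝ) ≃L[ℝ] (Fin (m + 1) → ℂ))
      (b0 : (Fin (m + 1) → ℂ) → Lam (Fin (m + 1) → ℂ)) (u0 : (Fin (m + 1) → ℂ) → ℝ),
      Conn rotX b0 ∧ Cut u0 ∧ Inva rotX u0 ∧
      |∫ y, evalForm (dfn u0 (L y) * om b0 m (L y)) (fun i => L (Pi.single i 1))|
        = (2 * Real.pi) ^ (m + 1))
    (hJ : GC J) (hb : Conn J b) (hu : Cut u) :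
    ∃ d : ℤ, |(d : ℝ) * ∫ x, evalForm (dfn u x * om b m x) o| = (2 * Real.pi) ^ (m + 1) := by
  obtain ⟨L, b0, u0, hb0, hu0, hi0, hval⟩ := hstd
  have hfin : finrank ℝ E = 2 * (m + 1) := by
    rw [finrank_eq_card_basis o.toBasis, Fintype.card_fin]
  obtain ⟨G, hG⟩ := exists_eqv hJ m (by omega)
  obtain ⟨d, hd⟩ := exists_degree_eqv o L hG hb hu m
  refine ⟨d, ?_⟩
  rw [← hd, ← hval]
  have hk : finrank ℝ (Fin (m + 1) → ℂ) ≤ 2 * (m + 1) := by
    rw [← L.toLinearEquiv.finrank_eq, finrank_fin_fun]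
  let μ : Measure (Fin (m + 1) → ℂ) := Measure.map L volume
  have hμ : μ.IsAddHaarMeasure := L.isAddHaarMeasure_map volume
  have htr : ∀ g : (Fin (m + 1) → ℂ) → ℝ, ∫ y, g (L y) = ∫ z, g z ∂μ := fun g =>
    (L.toHomeomorph.measurableEmbedding.integral_map g).symm
  have hGb := hb.pb hG
  have hcu := hu.comp (fun x hx => hG.contDiffAt hx) hG.hom hG.ne
  have h1 := cut_indep μ (fun x hx => rotX_ne hx) hGb hcu hu0 (m := m) hk
    (fun i => L (Pi.single i 1))
  have h2 := conn_indep μ (fun x hx => rotX_ne hx) hGb hb0 hu0 hi0 (m := m) hk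
    (fun i => L (Pi.single i 1))
  rw [htr (fun z => evalForm (dfn (fun z => u (G z)) z * om (pb G b) m z)
    (fun i => L (Pi.single i 1))), h1, h2,
    ← htr (fun z => evalForm (dfn u0 z * om b0 m z) (fun i => L (Pi.single i 1)))]

end Degree

/-- radial cut-off functions -/
theorem cut_norm {E : Type*} [NormedAddCommGroup E] [InnerProductSpace ℝ E]
    [FiniteDimensional ℝ E] {ρ : ℝ → ℝ} (hρ : ContDiff ℝ ∞ ρ) {a c : ℝ} (ha : 0 < a)
    (h0 : ∀ t ≤ a, ρ t = 0) (h1 : ∀ t, c ≤ t → ρ t = 1) : Cut (fun x : E => ρ ‖x‖) := by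
  have hnear : ∀ᶠ x in 𝓝 (0 : E), ρ ‖x‖ = 0 := by
    filter_upwards [Metric.ball_mem_nhds (0 : E) ha] with x hx
    exact h0 _ (mem_ball_zero_iff.1 hx).le
  refine ⟨?_, hnear, ?_⟩
  · refine contDiff_iff_contDiffAt.2 fun x => ?_
    by_cases hx : x = 0
    · subst hx
      exact contDiffAt_const.congr_of_eventuallyEq (f := fun _ => (0 : ℝ)) hnear
    · exact hρ.contDiffAt.comp x (contDiffAt_norm ℝ hx)
  · refine ⟨Metric.closedBall 0 c, isCompact_closedBall _ _, fun x hx => h1 _ ?_⟩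
    rw [mem_closedBall_zero_iff, not_le] at hx
    exact hx.le

end Vale.Agent.P231.EN
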