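import Vale.Agent.P231.EN.Eqv
import Vale.Agent.P231.EN.CS

/-!
# P231, block EN: pullback of connection forms by equivariant maps
-/

set_option linter.unusedSectionVars false

open Module Set Filter MeasureTheory
open scoped ContDiff Topology

noncomputable section

namespace Vale.Agent.P231.EN

open Vale.Agent.P231.Fm

variable {V : Type*} [NormedAddCommGroup V] [NormedSpace ℝ V] [FiniteDimensional ℝ V]
variable {J : V → V} {j : ℕ} {G : (Fin j → ℂ) → V}

theorem Eqv.contDiffAt (hG : Eqv J G) {z : Fin j → ℂ} (hz : z ≠ 0) : ContDiffAt ℝ ∞ G z :=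
  hG.smooth.contDiffAt (isOpen_compl_singleton.mem_nhds hz)

/-- the vector field `z ↦ i z` -/
def rotX (z : Fin j → ℂ) : Fin j → ℂ := Complex.I • z

theorem rotX_ne {z : Fin j → ℂ} (hz : z ≠ 0) : rotX z ≠ 0 := smul_ne_zero Complex.I_ne_zero hz

theorem Eqv.fderiv_rotX (hG : Eqv J G) {z : Fin j → ℂ} (hz : z ≠ 0) :
    fderiv ℝ G z (rotX z) = J (G z) := by
  have hc : HasDerivAt (fun t : ℝ => Complex.exp (t * Complex.I)) Complex.I 0 := by
    have h1 : HasDerivAt (fun t : ℝ => (t : ℂ) * Complex.I) Complex.I 0 := by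
      simpa using (Complex.ofRealCLM.hasDerivAt (x := (0 : ℝ))).mul_const Complex.I
    have h2 := h1.cexp
    simpa using h2
  have hcz : HasDerivAt (fun t : ℝ => Complex.exp (t * Complex.I) • z) (rotX z) 0 :=
    hc.smul_const z
  have hG1 : HasFDerivAt G (fderiv ℝ G z) ((fun t : ℝ => Complex.exp (t * Complex.I) • z) 0) := by
    have : (fun t : ℝ => Complex.exp (t * Complex.I) • z) 0 = z := by simp
    rw [this]
    exact ((hG.contDiffAt hz).differentiableAt (by simp)).hasFDerivAt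
  have h3 : HasDerivAt (fun t : ℝ => G (Complex.exp (t * Complex.I) • z))
      (fderiv ℝ G z (rotX z)) 0 := hG1.comp_hasDerivAt 0 hcz
  have h4 : HasDerivAt (fun t : ℝ => act J (Complex.exp (t * Complex.I)) (G z)) (J (G z)) 0 := by
    have h5 : (fun t : ℝ => act J (Complex.exp (t * Complex.I)) (G z))
        = fun t : ℝ => Real.cos t • G z + Real.sin t • J (G z) := by
      funext t
      rw [act, Complex.exp_ofReal_mul_I_re, Complex.exp_ofReal_mul_I_im]
    rw [h5]
    have h6 := ((Real.hasDerivAt_cos 0).smul_const (G z)).fun_add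
      ((Real.hasDerivAt_sin 0).smul_const (J (G z)))
    simpa using h6
  have h7 : (fun t : ℝ => G (Complex.exp (t * Complex.I) • z))
      = fun t : ℝ => act J (Complex.exp (t * Complex.I)) (G z) := by
    funext t
    exact hG.eqv _ (Complex.norm_exp_ofReal_mul_I t) z
  rw [h7] at h3
  exact h3.unique h4

variable {b : V → Lam V}

/-- pullback of a connection form by an equivariant map -/
theorem Conn.pb (hb : Conn J b) (hG : Eqv J G) : Conn rotX (pb G b) where
  smooth := fun z hz => contDiffAt_pb (n := ∞) (hG.contDiffAt hz) (hb.smooth _ (hG.ne z hz))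
    (by norm_num)
  odd := fun z hz => by
    rw [Fm.pb, ← pull_inv, hb.odd _ (hG.ne z hz), map_neg]
  one := fun z hz => by
    rw [Fm.pb, pull_iprod, hG.fderiv_rotX hz, hb.one _ (hG.ne z hz), map_one]
  zero := fun z hz => by
    rw [extd_pb ((hG.contDiffAt hz).of_le (by norm_cast)) (hb.diff (hG.ne z hz)), Fm.pb,
      pull_iprod, hG.fderiv_rotX hz, hb.zero _ (hG.ne z hz), map_zero]

/-! ### growth of homogeneous maps -/

section Growth

variable {E : Type*} [NormedAddCommGroup E] [NormedSpace ℝ E] [FiniteDimensional ℝ E]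

theorem homog_bounds {f : E → V} (hf : ∀ x, x ≠ 0 → ContinuousAt f x)
    (hh : ∀ t : ℝ, 0 < t → ∀ x, f (t • x) = t • f x) (hn : ∀ x, x ≠ 0 → f x ≠ 0) :
    ∃ c C : ℝ, 0 < c ∧ 0 < C ∧ ∀ x, c * ‖x‖ ≤ ‖f x‖ ∧ ‖f x‖ ≤ C * ‖x‖ := by
  have hcpt : IsCompact (Metric.sphere (0 : E) 1) := isCompact_sphere 0 1
  have hcont : ContinuousOn (fun x => ‖f x‖) (Metric.sphere (0 : E) 1) := fun x hx =>
    ((hf x (ne_zero_of_mem_unit_sphere ⟨x, hx⟩)).norm).continuousWithinAt
  have h0 : f 0 = 0 := by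
    have := hh 2 (by norm_num) 0
    rw [smul_zero, two_smul] at this
    exact (left_eq_add.1 this)
  have key : ∀ x : E, x ≠ 0 → ∃ y ∈ Metric.sphere (0 : E) 1, ‖f x‖ = ‖x‖ * ‖f y‖ := by
    intro x hx
    have hx' : 0 < ‖x‖ := norm_pos_iff.2 hx
    refine ⟨‖x‖⁻¹ • x, ?_, ?_⟩
    · rw [mem_sphere_zero_iff_norm, norm_smul, norm_inv, norm_norm, inv_mul_cancel₀ hx'.ne']
    · rw [hh _ (inv_pos.2 hx'), norm_smul, norm_inv, norm_norm, ← mul_assoc,
        mul_inv_cancel₀ hx'.ne', one_mul]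
  rcases (Metric.sphere (0 : E) 1).eq_empty_or_nonempty with he | hne
  · refine ⟨1, 1, one_pos, one_pos, fun x => ?_⟩
    by_cases hx : x = 0
    · rw [hx, h0]; simp
    · obtain ⟨y, hy, -⟩ := key x hx
      rw [he] at hy
      exact hy.elim
  · obtain ⟨p, hp, hpm⟩ := hcpt.exists_isMinOn hne hcont
    obtain ⟨q, hq, hqm⟩ := hcpt.exists_isMaxOn hne hcont
    have hp0 : 0 < ‖f p‖ := norm_pos_iff.2 (hn p (ne_zero_of_mem_unit_sphere ⟨p, hp⟩))
    have hq0 : 0 < ‖f q‖ := norm_pos_iff.2 (hn q (ne_zero_of_mem_unit_sphere ⟨q, hq⟩))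
    refine ⟨‖f p‖, ‖f q‖, hp0, hq0, fun x => ?_⟩
    by_cases hx : x = 0
    · rw [hx, h0]; simp
    · obtain ⟨y, hy, h1⟩ := key x hx
      rw [h1, mul_comm ‖x‖]
      exact ⟨mul_le_mul_of_nonneg_right (hpm hy) (norm_nonneg x),
        mul_le_mul_of_nonneg_right (hqm hy) (norm_nonneg x)⟩

/-- a cut-off function composed with a homogeneous map -/
theorem Cut.comp {u : V → ℝ} (hu : Cut u) {f : E → V} (hf : ∀ x, x ≠ 0 → ContDiffAt ℝ ∞ f x)
    (hh : ∀ t : ℝ, 0 < t → ∀ x, f (t • x) = t • f x) (hn : ∀ x, x ≠ 0 → f x ≠ 0) :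
    Cut (fun x => u (f x)) := by
  obtain ⟨c, C, hc, hC, hb⟩ := homog_bounds (fun x hx => (hf x hx).continuousAt) hh hn
  have hnear : ∀ᶠ x in 𝓝 (0 : E), u (f x) = 0 := by
    have h0 : Tendsto f (𝓝 0) (𝓝 0) := by
      refine squeeze_zero_norm (fun x => (hb x).2) ?_
      have : Tendsto (fun x : E => C * ‖x‖) (𝓝 0) (𝓝 (C * ‖(0 : E)‖)) :=
        (continuous_const.mul continuous_norm).tendsto 0
      simpa using this
    exact h0.eventually hu.near
  refine ⟨?_, hnear, ?_⟩
  · refine contDiff_iff_contDiffAt.2 fun x => ?_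
    by_cases hx : x = 0
    · subst hx
      exact contDiffAt_const.congr_of_eventuallyEq (f := fun _ => (0 : ℝ)) hnear
    · exact hu.smooth.contDiffAt.comp x (hf x hx)
  · obtain ⟨K, hK, h1⟩ := hu.far
    obtain ⟨R, hR⟩ := hK.isBounded.exists_norm_le
    refine ⟨Metric.closedBall 0 (R / c), isCompact_closedBall _ _, fun x hx => h1 _ fun h => hx ?_⟩
    rw [mem_closedBall_zero_iff, le_div_iff₀ hc]
    have h2 := (hb x).1
    have h3 := hR _ h
    nlinarith

end Growth

end Vale.Agent.P231.EN
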